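import Mathlib
import Vale.Agent.Helper15.P015.Primes
import Vale.Agent.Helper15.P015.Gauss
import Vale.Agent.Helper15.P015.Sieve
import Vale.Agent.Helper15.P015.IrrBarrier
import Vale.Agent.Helper15.P015.LinearStrip

/-!
# P015 (Gaussian moat problem): no bounded-step walk inside a strip of logarithmic width
# around any real line

Let `u` and `v ≠ 0` be complex numbers and `D` a real number.  There is a constant `c > 0`
such that for every real `C` there is no infinite sequence of pairwise distinct Gaussian primes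
with consecutive Euclidean distances at most `D` all of whose terms `z` lie within distance
`C + c log |z|` of the real line `u + ℝ v`.

Proof idea.  If `v` is a real multiple of a Gaussian integer, this is the helper module `LinearStrip`.
Otherwise the slope of the line is irrational, and after a reflection in the diagonal its
modulus is at most one.  The two-stage sieve of `LinearStrip`, run for the direction `1`, gives
at every suitable scale `k` a modulus `P` (a product of primes `p ≡ 1 (mod 4)` below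
`2 ^ (k + 1)`) and a residue `M` such that every Gaussian integer `M + τ`, with `τ` in a box of
`K` columns and height of order `2 ^ k`, has norm divisible by a prime factor of `P`; this is
invariant under translation by multiples of `P`.  The slope `α` has convergents `a / q` with
`q` arbitrarily large; for a scale `k` with `P ≤ q` and `log q` of order `2 ^ k`, an
inhomogeneous approximation `|m α + γ - n| ≤ 3 / (2 q)` with `1 ≤ m ≤ q` moves a translate of
the box onto the line at the abscissa `m P + M`, where `log |z|` is of order `2 ^ k`.  Such a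
scale exists because every window `[k, 128 k)` contains a `j` for which the dyadic block
`(2 ^ j, 2 ^ (j + 1)]` holds at least `2 ^ j / (8 (j + 1))` primes `p ≡ 1 (mod 4)`; this
follows from Mertens' theorem for the progression `1 mod 4` and Chebyshev's upper bound.
-/

namespace Vale.Agent.Results.P015.EveryLineLogStrip

open Vale.Agent.Helper15.P015 Vale.Agent.Helper15.P015.Irr

/-- Between two abscissae the region around a line of slope of modulus at most one is bounded. -/
theorem region_bounded_v (α β c C : ℝ) (hα1 : |α| ≤ 1) (hc : c ≤ 1 / 2) (Rm : ℕ) :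
    ∃ Hb : ℕ, ∀ w : GaussianInt, w ≠ 0 → |w.re| ≤ (Rm : ℤ) →
      |(w.im : ℝ) - α * w.re - β| ≤ C + c * Real.log ‖(w : ℂ)‖ → |w.im| ≤ (Hb : ℤ) := by
  refine ⟨⌈4 * (Rm : ℝ) + 2 * |β| + 2 * |C|⌉₊, ?_⟩
  intro w hw hre hreg
  have hreR : |(w.re : ℝ)| ≤ Rm := by
    have : ((|w.re| : ℤ) : ℝ) ≤ ((Rm : ℤ) : ℝ) := by exact_mod_cast hre
    push_cast at this
    exact this
  have hnw1 : 1 ≤ ‖(w : ℂ)‖ := one_le_norm_of_ne_zero w hw
  have hnw := norm_le_X_add_Y 1 w one_ne_zero
  rw [X_one, Y_one] at hnw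
  have hlog : Real.log ‖(w : ℂ)‖ ≤ ‖(w : ℂ)‖ := by
    have := Real.log_le_sub_one_of_pos (by linarith : (0 : ℝ) < ‖(w : ℂ)‖)
    linarith
  have hlog0 : 0 ≤ Real.log ‖(w : ℂ)‖ := Real.log_nonneg hnw1
  have hcl : c * Real.log ‖(w : ℂ)‖ ≤ (1 / 2) * ‖(w : ℂ)‖ := by
    calc c * Real.log ‖(w : ℂ)‖ ≤ (1 / 2) * Real.log ‖(w : ℂ)‖ :=
          mul_le_mul_of_nonneg_right hc hlog0
      _ ≤ (1 / 2) * ‖(w : ℂ)‖ := mul_le_mul_of_nonneg_left hlog (by norm_num)
  have hαre : |α * (w.re : ℝ)| ≤ |(w.re : ℝ)| := by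
    rw [abs_mul]
    calc |α| * |(w.re : ℝ)| ≤ 1 * |(w.re : ℝ)| := mul_le_mul_of_nonneg_right hα1 (abs_nonneg _)
      _ = |(w.re : ℝ)| := one_mul _
  have him : |(w.im : ℝ)| ≤ (C + c * Real.log ‖(w : ℂ)‖) + |(w.re : ℝ)| + |β| := by
    have h1 : (w.im : ℝ) = ((w.im : ℝ) - α * w.re - β) + α * w.re + β := by ring
    have h2 := abs_add_le (((w.im : ℝ) - α * w.re - β) + α * w.re) β
    have h3 := abs_add_le ((w.im : ℝ) - α * w.re - β) (α * w.re)
    rw [← h1] at h2
    linarith
  have hC := le_abs_self C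
  have hnorm : ‖(w : ℂ)‖ ≤ 4 * (Rm : ℝ) + 2 * |β| + 2 * |C| := by linarith
  have him2 : |(w.im : ℝ)| ≤ ‖(w : ℂ)‖ := by
    have := Complex.abs_im_le_norm (w : ℂ)
    simpa using this
  have h5 := Nat.le_ceil (4 * (Rm : ℝ) + 2 * |β| + 2 * |C|)
  have h6 : ((|w.im| : ℤ) : ℝ) ≤ ((⌈4 * (Rm : ℝ) + 2 * |β| + 2 * |C|⌉₊ : ℤ) : ℝ) := by
    push_cast
    linarith
  exact_mod_cast h6

/-- The vertical deviation from a line of slope of modulus at most one is at most twice the
distance to any of its points. -/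
theorem vert_dev (u v : ℂ) (hv : v.re ≠ 0) (hα1 : |v.im / v.re| ≤ 1) (w : GaussianInt) (t : ℝ) :
    |(w.im : ℝ) - v.im / v.re * w.re - (u.im - v.im / v.re * u.re)|
      ≤ 2 * ‖(w : ℂ) - (u + t * v)‖ := by
  obtain ⟨d, hd⟩ : ∃ d : ℂ, d = (w : ℂ) - (u + t * v) := ⟨_, rfl⟩
  rw [← hd]
  have h1 : (w.im : ℝ) - v.im / v.re * w.re - (u.im - v.im / v.re * u.re)
      = d.im - v.im / v.re * d.re := by
    rw [hd]
    simp
    field_simp
    ring
  rw [h1]
  have h2 : |d.im| ≤ ‖d‖ := Complex.abs_im_le_norm d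
  have h3 : |d.re| ≤ ‖d‖ := Complex.abs_re_le_norm d
  have h4 : |v.im / v.re * d.re| ≤ ‖d‖ := by
    rw [abs_mul]
    calc |v.im / v.re| * |d.re| ≤ 1 * ‖d‖ := mul_le_mul hα1 h3 (abs_nonneg _) zero_le_one
      _ = ‖d‖ := one_mul _
  have h5 := abs_sub (d.im) (v.im / v.re * d.re)
  linarith

/-- Lines of irrational slope of modulus at most one. -/
theorem shallow (D : ℝ) : ∃ c : ℝ, 0 < c ∧ ∀ (u v : ℂ), v.re ≠ 0 → Irrational (v.im / v.re) →
    |v.im / v.re| ≤ 1 → ∀ (C : ℝ) (z : ℕ → GaussianInt), Function.Injective z →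
      (∀ n, Prime (z n)) →
      (∀ n, ‖((z (n + 1) : GaussianInt) : ℂ) - ((z n : GaussianInt) : ℂ)‖ ≤ D) →
      (∀ n, ∃ t : ℝ, ‖((z n : GaussianInt) : ℂ) - (u + t * v)‖
        ≤ C + c * Real.log ‖((z n : GaussianInt) : ℂ)‖) → False := by
  obtain ⟨Ac, hAc, hprod⟩ := prod_bound 1
  obtain ⟨k₁, hsup⟩ := supply
  obtain ⟨K, hK⟩ : ∃ K : ℕ, K = ⌈D⌉₊ + 1 := ⟨_, rfl⟩
  have hK1 : 1 ≤ K := by omega
  obtain ⟨hcb0, hcb2⟩ := small_c' K Ac hK1 hAc
  obtain ⟨cb, hcb⟩ : ∃ cb : ℝ, cb = 1 / (10368 * K * Ac) := ⟨_, rfl⟩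
  rw [← hcb] at hcb0 hcb2
  refine ⟨cb / 2, by positivity, ?_⟩
  intro u v hvre hirr hα1 C z hinj hprime hstep hreg
  obtain ⟨α, hα⟩ : ∃ α : ℝ, α = v.im / v.re := ⟨_, rfl⟩
  obtain ⟨β, hβ⟩ : ∃ β : ℝ, β = u.im - α * u.re := ⟨_, rfl⟩
  have hz0 : ∀ n, z n ≠ 0 := fun n => (hprime n).ne_zero
  have hvert : ∀ n, |((z n).im : ℝ) - α * (z n).re - β|
      ≤ 2 * C + cb * Real.log ‖((z n : GaussianInt) : ℂ)‖ := by
    intro n
    obtain ⟨t, ht⟩ := hreg n
    have h1 := vert_dev u v hvre hα1 (z n) t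
    rw [← hα, ← hβ] at h1
    linarith
  rw [← hα] at hirr hα1
  have hvertneg : ∀ n, |((-(z n)).im : ℝ) - α * (-(z n)).re - (-β)|
      ≤ 2 * C + cb * Real.log ‖((-(z n) : GaussianInt) : ℂ)‖ := by
    intro n
    have h1 := hvert n
    have h2 : (((-(z n)).im : ℤ) : ℝ) - α * ((-(z n)).re : ℤ) - (-β)
        = -(((z n).im : ℝ) - α * (z n).re - β) := by
      simp
      ring
    rw [h2, abs_neg]
    have h3 : ‖((-(z n) : GaussianInt) : ℂ)‖ = ‖((z n : GaussianInt) : ℂ)‖ := by
      rw [GaussianInt.toComplex_neg, norm_neg]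
    rw [h3]
    exact h1
  have hKge : D ≤ K := by
    rw [hK]
    push_cast
    have := Nat.le_ceil D
    linarith
  have hstepre : ∀ n, |(z (n + 1)).re - (z n).re| ≤ (K : ℤ) := by
    intro n
    have h1 : |(((z (n + 1)).re : ℤ) : ℝ) - ((z n).re : ℝ)| ≤ D := by
      have h2 := Complex.abs_re_le_norm
        (((z (n + 1) : GaussianInt) : ℂ) - ((z n : GaussianInt) : ℂ))
      have h3 : (((z (n + 1) : GaussianInt) : ℂ) - ((z n : GaussianInt) : ℂ)).re
          = (((z (n + 1)).re : ℤ) : ℝ) - ((z n).re : ℝ) := by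
        simp
      rw [h3] at h2
      exact h2.trans (hstep n)
    have h3 : ((|(z (n + 1)).re - (z n).re| : ℤ) : ℝ) ≤ ((K : ℤ) : ℝ) := by
      push_cast
      linarith
    exact_mod_cast h3
  obtain ⟨R₁, hR₁, hbar₁⟩ := barrier_irr Ac hAc hprod k₁ hsup K hK1 α β (2 * C) hirr hα1
    (z 0).re
  obtain ⟨R₂, hR₂, hbar₂⟩ := barrier_irr Ac hAc hprod k₁ hsup K hK1 α (-β) (2 * C) hirr hα1
    (-(z 0).re)
  rw [← hcb] at hbar₁ hbar₂
  have hinv : ∀ n, (z n).re ≤ R₁ ∧ -(z n).re ≤ R₂ := by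
    intro n
    induction n with
    | zero => exact ⟨hR₁, hR₂⟩
    | succ n ih =>
      have hs := hstepre n
      rw [abs_le] at hs
      constructor
      · by_contra hcon
        rw [not_le] at hcon
        exact hbar₁ (z (n + 1)) (hprime (n + 1)) hcon (by linarith [ih.1]) (hvert (n + 1))
      · by_contra hcon
        rw [not_le] at hcon
        have hre : (-(z (n + 1))).re = -(z (n + 1)).re := by simp
        exact hbar₂ (-(z (n + 1))) (hprime (n + 1)).neg (by rw [hre]; exact hcon)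
          (by rw [hre]; linarith [ih.2]) (hvertneg (n + 1))
  obtain ⟨Rm, hRm⟩ : ∃ Rm : ℕ, Rm = (max R₁ R₂).toNat := ⟨_, rfl⟩
  obtain ⟨Hb, hHb⟩ := region_bounded_v α β cb (2 * C) hα1 hcb2 Rm
  have hinjpair : Function.Injective (fun τ : GaussianInt => (τ.re, τ.im)) := by
    intro τ τ' hττ
    simp only [Prod.mk.injEq] at hττ
    exact Zsqrtd.ext hττ.1 hττ.2
  have hfin : (Set.range z).Finite := by
    apply Set.Finite.subset (Set.Finite.preimage hinjpair.injOn
      ((Set.finite_Icc (-(Rm : ℤ)) Rm).prod (Set.finite_Icc (-(Hb : ℤ)) Hb)))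
    rintro _ ⟨n, rfl⟩
    have h1 := hinv n
    have hXn : |(z n).re| ≤ (Rm : ℤ) := by
      rw [abs_le, hRm]
      have h3 : max R₁ R₂ ≤ ((max R₁ R₂).toNat : ℤ) := Int.self_le_toNat _
      have h4 := le_max_left R₁ R₂
      have h5 := le_max_right R₁ R₂
      constructor <;> linarith [h1.1, h1.2]
    have hYn := hHb (z n) (hz0 n) hXn (hvert n)
    rw [abs_le] at hXn hYn
    simp only [Set.mem_preimage, Set.mem_prod, Set.mem_Icc]
    exact ⟨⟨hXn.1, hXn.2⟩, hYn.1, hYn.2⟩
  exact (Set.infinite_range_of_injective hinj) hfin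

/-- Reflection in the diagonal preserves Gaussian primes. -/
theorem sw_prime (w : GaussianInt) (hw : Prime w) :
    Prime ((⟨0, 1⟩ : GaussianInt) * star w) := by
  have hu : IsUnit (⟨0, 1⟩ : GaussianInt) := by
    apply IsUnit.of_mul_eq_one (⟨0, -1⟩ : GaussianInt)
    ext <;> simp
  have h1 : Prime (star w) := by
    have := (MulEquiv.prime_iff (starRingAut : GaussianInt ≃+* GaussianInt)).mpr hw
    simpa using this
  exact ((associated_unit_mul_left (star w) _ hu).prime_iff).mpr h1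

theorem sw_coe (w : GaussianInt) :
    (((⟨0, 1⟩ : GaussianInt) * star w : GaussianInt) : ℂ)
      = Complex.I * (starRingEnd ℂ) (w : ℂ) := by
  apply Complex.ext
  · simp
  · simp

theorem phi_norm (d : ℂ) : ‖Complex.I * (starRingEnd ℂ) d‖ = ‖d‖ := by
  rw [norm_mul, Complex.norm_I, one_mul, RCLike.norm_conj]

/-- Steep lines are reduced to shallow ones by reflection in the diagonal. -/
theorem swap_case (c D : ℝ)
    (hc : ∀ (u v : ℂ), v.re ≠ 0 → Irrational (v.im / v.re) →
      |v.im / v.re| ≤ 1 → ∀ (C : ℝ) (z : ℕ → GaussianInt), Function.Injective z →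
      (∀ n, Prime (z n)) →
      (∀ n, ‖((z (n + 1) : GaussianInt) : ℂ) - ((z n : GaussianInt) : ℂ)‖ ≤ D) →
      (∀ n, ∃ t : ℝ, ‖((z n : GaussianInt) : ℂ) - (u + t * v)‖
        ≤ C + c * Real.log ‖((z n : GaussianInt) : ℂ)‖) → False)
    (u v : ℂ) (hre : v.re ≠ 0) (him : v.im ≠ 0) (hirr : Irrational (v.im / v.re))
    (hsl : ¬ |v.im / v.re| ≤ 1) (C : ℝ) (z : ℕ → GaussianInt) (hinj : Function.Injective z)
    (hprime : ∀ n, Prime (z n))
    (hstep : ∀ n, ‖((z (n + 1) : GaussianInt) : ℂ) - ((z n : GaussianInt) : ℂ)‖ ≤ D)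
    (hreg : ∀ n, ∃ t : ℝ, ‖((z n : GaussianInt) : ℂ) - (u + t * v)‖
        ≤ C + c * Real.log ‖((z n : GaussianInt) : ℂ)‖) : False := by
  have hvre' : (Complex.I * (starRingEnd ℂ) v).re = v.im := by simp
  have hvim' : (Complex.I * (starRingEnd ℂ) v).im = v.re := by simp
  refine hc (Complex.I * (starRingEnd ℂ) u) (Complex.I * (starRingEnd ℂ) v) ?_ ?_ ?_ C
    (fun n => (⟨0, 1⟩ : GaussianInt) * star (z n)) ?_ ?_ ?_ ?_
  · rw [hvre']
    exact him
  · rw [hvre', hvim']
    have h1 := hirr.inv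
    rw [inv_div] at h1
    exact h1
  · rw [hvre', hvim']
    rw [not_le, abs_div, one_lt_div (abs_pos.mpr hre)] at hsl
    rw [abs_div, div_le_one (abs_pos.mpr him)]
    exact hsl.le
  · intro n m hnm
    have h0 : (⟨0, 1⟩ : GaussianInt) ≠ 0 := by
      intro h
      have := congrArg Zsqrtd.im h
      simp at this
    have h1 : star (z n) = star (z m) := mul_left_cancel₀ h0 hnm
    exact hinj (star_injective h1)
  · intro n
    exact sw_prime (z n) (hprime n)
  · intro n
    show ‖(((⟨0, 1⟩ : GaussianInt) * star (z (n + 1)) : GaussianInt) : ℂ)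
      - (((⟨0, 1⟩ : GaussianInt) * star (z n) : GaussianInt) : ℂ)‖ ≤ D
    rw [sw_coe, sw_coe, ← mul_sub, ← map_sub, phi_norm]
    exact hstep n
  · intro n
    obtain ⟨t, ht⟩ := hreg n
    refine ⟨t, ?_⟩
    show ‖(((⟨0, 1⟩ : GaussianInt) * star (z n) : GaussianInt) : ℂ)
      - (Complex.I * (starRingEnd ℂ) u + t * (Complex.I * (starRingEnd ℂ) v))‖
      ≤ C + c * Real.log ‖(((⟨0, 1⟩ : GaussianInt) * star (z n) : GaussianInt) : ℂ)‖
    have h1 : (((⟨0, 1⟩ : GaussianInt) * star (z n) : GaussianInt) : ℂ)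
      - (Complex.I * (starRingEnd ℂ) u + t * (Complex.I * (starRingEnd ℂ) v))
        = Complex.I * (starRingEnd ℂ) (((z n : GaussianInt) : ℂ) - (u + t * v)) := by
      rw [sw_coe]
      simp only [map_sub, map_add, map_mul, Complex.conj_ofReal]
      ring
    rw [h1, phi_norm, sw_coe, phi_norm]
    exact ht

/-- **No bounded-step walk on Gaussian primes inside a strip of logarithmic width around any
line.**  Let `u` and `v ≠ 0` be complex numbers and `D` a real number.  There is `c > 0` such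
that for every real `C` there is no sequence of pairwise distinct Gaussian primes
`z 0, z 1, …` with `|z (n + 1) - z n| ≤ D` for all `n`, every term of which is within distance
`C + c log |z n|` of some point `u + t v` (`t` real) of the line through `u` with
direction `v`. -/
theorem result (u v : ℂ) (hv : v ≠ 0) (D : ℝ) :
    ∃ c : ℝ, 0 < c ∧ ∀ (C : ℝ) (z : ℕ → GaussianInt), Function.Injective z →
      (∀ n, Prime (z n)) →
      (∀ n, ‖((z (n + 1) : GaussianInt) : ℂ) - ((z n : GaussianInt) : ℂ)‖ ≤ D) →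
      (∀ n, ∃ t : ℝ, ‖((z n : GaussianInt) : ℂ) - (u + t * v)‖
        ≤ C + c * Real.log ‖((z n : GaussianInt) : ℂ)‖) → False := by
  have _ := hv
  by_cases hrat : ∃ (g : GaussianInt) (r : ℝ), g ≠ 0 ∧ v = (r : ℂ) * (g : ℂ)
  · obtain ⟨g, r, hg, hvr⟩ := hrat
    obtain ⟨c, hc0, hc⟩ := LinearStrip.result g hg D
    refine ⟨c, hc0, ?_⟩
    intro C z hinj hprime hstep hreg
    refine hc 0 (C + ‖u‖) z hinj hprime hstep ?_
    intro n
    obtain ⟨t, ht⟩ := hreg n
    refine ⟨t * r, ?_⟩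
    have h1 : ((z n : GaussianInt) : ℂ) - (((0 : GaussianInt) : ℂ) + ((t * r : ℝ) : ℂ) * (g : ℂ))
        = (((z n : GaussianInt) : ℂ) - (u + t * v)) + u := by
      rw [hvr, GaussianInt.toComplex_zero]
      push_cast
      ring
    rw [h1]
    have h2 := norm_add_le (((z n : GaussianInt) : ℂ) - (u + t * v)) u
    linarith
  · obtain ⟨c, hc0, hc⟩ := shallow D
    refine ⟨c, hc0, ?_⟩
    intro C z hinj hprime hstep hreg
    have hre : v.re ≠ 0 := by
      intro h0
      apply hrat
      refine ⟨⟨0, 1⟩, v.im, ?_, ?_⟩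
      · intro h
        have := congrArg Zsqrtd.im h
        simp at this
      · apply Complex.ext <;> simp [h0]
    have him : v.im ≠ 0 := by
      intro h0
      apply hrat
      refine ⟨1, v.re, one_ne_zero, ?_⟩
      apply Complex.ext <;> simp [h0]
    have hirr : Irrational (v.im / v.re) := by
      rintro ⟨q, hq⟩
      apply hrat
      have hden : (q.den : ℝ) ≠ 0 := by exact_mod_cast q.den_ne_zero
      have hq' : v.im = (q.num : ℝ) / q.den * v.re := by
        have h1 : ((q : ℚ) : ℝ) = (q.num : ℝ) / q.den := by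
          rw [Rat.cast_def]
        rw [← h1, hq]
        field_simp
      refine ⟨⟨q.den, q.num⟩, v.re / q.den, ?_, ?_⟩
      · intro h
        have := congrArg Zsqrtd.re h
        simp at this
      · apply Complex.ext
        · simp
        · simp
          rw [hq']
          field_simp
    by_cases hsl : |v.im / v.re| ≤ 1
    · exact hc u v hre hirr hsl C z hinj hprime hstep hreg
    · exact swap_case c D hc u v hre him hirr hsl C z hinj hprime hstep hreg

end Vale.Agent.Results.P015.EveryLineLogStrip
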