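import Mathlib
import Vale.Agent.Helper15.P015.Primes
import Vale.Agent.Helper15.P015.Gauss
import Vale.Agent.Helper15.P015.Sieve
import Vale.Agent.Helper15.P015.LinearStrip
import Vale.Agent.Helper15.P015.IrrBarrier
import Vale.Agent.Results.P015.EveryLineLogStrip

/-!
# P015 (Gaussian moat problem): Gaussian-prime-free disks centred on every real line

Let `u` and `v ≠ 0` be complex numbers.  For every radius `R` and every bound `T` there is a
real `t ≥ T` such that no Gaussian prime lies within distance `R` of the point `u + t v` of the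
line `u + ℝ v`.  The line is arbitrary: its slope may be irrational and it need not contain any
Gaussian integer.

Proof idea.  If `v` is a real multiple of a Gaussian integer `g`, the two-stage sieve of the
helper module `LinearStrip` gives, arbitrarily far out, a band of `K` consecutive values of the
coordinate along `g` in which no Gaussian prime lies within a prescribed distance of the line
`ℝ g`; a disk of radius `R` around a point of `u + ℝ g` in the middle of the band lies within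
distance `R + |u|` of `ℝ g`.  Otherwise the slope is irrational and, after a reflection in the
diagonal, of modulus at most one; the barrier of the helper module `IrrBarrier` (sieve for the
direction `1`, moved onto the line by an inhomogeneous Diophantine approximation built from a
convergent of the slope) gives `K` consecutive abscissae at which no Gaussian prime lies within
vertical distance `2 R` of the line, and the disk is placed over the middle abscissa.
-/

namespace Vale.Agent.Results.P015.DisksOnEveryLine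

open Vale.Agent.Helper15.P015 Vale.Agent.Helper15.P015.Irr

/-- Lines of irrational slope of modulus at most one, traversed in the direction of increasing
real part. -/
theorem disks_shallow_pos (u v : ℂ) (hvre : 0 < v.re) (hirr : Irrational (v.im / v.re))
    (hα1 : |v.im / v.re| ≤ 1) (R T : ℝ) :
    ∃ t : ℝ, T ≤ t ∧ ∀ z : GaussianInt, Prime z →
      R < ‖((z : GaussianInt) : ℂ) - (u + t * v)‖ := by
  obtain ⟨Ac, hAc, hprod⟩ := prod_bound 1
  obtain ⟨k₁, hsup⟩ := supply
  obtain ⟨K, hK⟩ : ∃ K : ℕ, K = 2 * ⌈R⌉₊ + 2 := ⟨_, rfl⟩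
  have hK1 : 1 ≤ K := by omega
  obtain ⟨α, hα⟩ : ∃ α : ℝ, α = v.im / v.re := ⟨_, rfl⟩
  obtain ⟨β, hβ⟩ : ∃ β : ℝ, β = u.im - α * u.re := ⟨_, rfl⟩
  obtain ⟨hcb0, hcb2⟩ := small_c' K Ac hK1 hAc
  obtain ⟨Rb, hRb, hbar⟩ := barrier_irr Ac hAc hprod k₁ hsup K hK1 α β (2 * R)
    (by rw [hα]; exact hirr) (by rw [hα]; exact hα1) ⌈T * v.re + u.re⌉
  obtain ⟨t, ht⟩ : ∃ t : ℝ, t = ((Rb : ℝ) + ⌈R⌉₊ + 1 - u.re) / v.re := ⟨_, rfl⟩
  have hPre : (u + (t : ℂ) * v).re = (Rb : ℝ) + ⌈R⌉₊ + 1 := by
    have h1 : (u + (t : ℂ) * v).re = u.re + t * v.re := by simp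
    rw [h1, ht]
    field_simp
    ring
  refine ⟨t, ?_, ?_⟩
  · have h1 : T * v.re + u.re ≤ (⌈T * v.re + u.re⌉ : ℝ) := Int.le_ceil _
    have h2 : ((⌈T * v.re + u.re⌉ : ℤ) : ℝ) ≤ (Rb : ℝ) := by exact_mod_cast hRb
    rw [ht, le_div_iff₀ hvre]
    have h3 : (0 : ℝ) ≤ ⌈R⌉₊ := Nat.cast_nonneg _
    linarith
  · intro z hz
    by_contra hcon
    rw [not_lt] at hcon
    have hre : |(z.re : ℝ) - ((Rb : ℝ) + ⌈R⌉₊ + 1)| ≤ R := by
      have h1 := Complex.abs_re_le_norm (((z : GaussianInt) : ℂ) - (u + t * v))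
      have h0 : (((z : GaussianInt) : ℂ) - (u + t * v)).re = (z.re : ℝ) - (u + (t : ℂ) * v).re := by
        simp
      rw [h0, hPre] at h1
      exact h1.trans hcon
    have hRceil : R ≤ (⌈R⌉₊ : ℝ) := Nat.le_ceil R
    rw [abs_le] at hre
    have hlow : Rb < z.re := by
      have : (Rb : ℝ) < (z.re : ℝ) := by linarith
      exact_mod_cast this
    have hup : z.re ≤ Rb + K := by
      have : (z.re : ℝ) ≤ (Rb : ℝ) + (K : ℝ) := by
        rw [hK]
        push_cast
        linarith
      exact_mod_cast this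
    have hvd := EveryLineLogStrip.vert_dev u v hvre.ne' hα1 z t
    rw [← hα, ← hβ] at hvd
    apply hbar z hz hlow hup
    have hlog : 0 ≤ Real.log ‖((z : GaussianInt) : ℂ)‖ :=
      Real.log_nonneg (one_le_norm_of_ne_zero z hz.ne_zero)
    have h5 : 0 ≤ (1 / (10368 * (K : ℝ) * Ac)) * Real.log ‖((z : GaussianInt) : ℂ)‖ :=
      mul_nonneg hcb0.le hlog
    linarith

/-- Central symmetry. -/
theorem disks_neg (u v : ℂ) (R T : ℝ)
    (h : ∃ t : ℝ, T ≤ t ∧ ∀ z : GaussianInt, Prime z →
      R < ‖((z : GaussianInt) : ℂ) - (-u + t * -v)‖) :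
    ∃ t : ℝ, T ≤ t ∧ ∀ z : GaussianInt, Prime z →
      R < ‖((z : GaussianInt) : ℂ) - (u + t * v)‖ := by
  obtain ⟨t, ht, h1⟩ := h
  refine ⟨t, ht, ?_⟩
  intro z hz
  have h2 := h1 (-z) hz.neg
  have h3 : (((-z : GaussianInt) : GaussianInt) : ℂ) - (-u + (t : ℂ) * -v)
      = -(((z : GaussianInt) : ℂ) - (u + t * v)) := by
    rw [GaussianInt.toComplex_neg]
    ring
  rw [h3, norm_neg] at h2
  exact h2

/-- Lines of irrational slope of modulus at most one. -/
theorem disks_shallow (u v : ℂ) (hvre : v.re ≠ 0) (hirr : Irrational (v.im / v.re))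
    (hα1 : |v.im / v.re| ≤ 1) (R T : ℝ) :
    ∃ t : ℝ, T ≤ t ∧ ∀ z : GaussianInt, Prime z →
      R < ‖((z : GaussianInt) : ℂ) - (u + t * v)‖ := by
  rcases lt_or_gt_of_ne hvre with hneg | hpos
  · apply disks_neg
    have h1 : (-v).im / (-v).re = v.im / v.re := by
      simp [neg_div_neg_eq]
    apply disks_shallow_pos (-u) (-v) (by simpa using hneg) (by rw [h1]; exact hirr)
      (by rw [h1]; exact hα1)
  · exact disks_shallow_pos u v hpos hirr hα1 R T

/-- Reflection in the diagonal. -/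
theorem disks_swap (u v : ℂ) (R T : ℝ)
    (h : ∃ t : ℝ, T ≤ t ∧ ∀ z : GaussianInt, Prime z →
      R < ‖((z : GaussianInt) : ℂ)
        - (Complex.I * (starRingEnd ℂ) u + t * (Complex.I * (starRingEnd ℂ) v))‖) :
    ∃ t : ℝ, T ≤ t ∧ ∀ z : GaussianInt, Prime z →
      R < ‖((z : GaussianInt) : ℂ) - (u + t * v)‖ := by
  obtain ⟨t, ht, h1⟩ := h
  refine ⟨t, ht, ?_⟩
  intro z hz
  have h2 := h1 _ (EveryLineLogStrip.sw_prime z hz)
  have h3 : (((⟨0, 1⟩ : GaussianInt) * star z : GaussianInt) : ℂ)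
      - (Complex.I * (starRingEnd ℂ) u + t * (Complex.I * (starRingEnd ℂ) v))
        = Complex.I * (starRingEnd ℂ) (((z : GaussianInt) : ℂ) - (u + t * v)) := by
    rw [EveryLineLogStrip.sw_coe]
    simp only [map_sub, map_add, map_mul, Complex.conj_ofReal]
    ring
  rw [h3, EveryLineLogStrip.phi_norm] at h2
  exact h2

theorem X_eq_re (g z : GaussianInt) :
    (X g z : ℝ) = (((z : GaussianInt) : ℂ) * (starRingEnd ℂ) (g : ℂ)).re := by
  simp [X, Complex.mul_re]

/-- Lines whose direction is a positive real multiple of a nonzero Gaussian integer. -/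
theorem disks_rat (u : ℂ) (g : GaussianInt) (hg : g ≠ 0) (r : ℝ) (hr : 0 < r) (R T : ℝ) :
    ∃ t : ℝ, T ≤ t ∧ ∀ z : GaussianInt, Prime z →
      R < ‖((z : GaussianInt) : ℂ) - (u + t * ((r : ℂ) * (g : ℂ)))‖ := by
  have hgn : 1 ≤ g.norm := GaussianInt.norm_pos.mpr hg
  obtain ⟨V, hV⟩ : ∃ V : ℕ, (V : ℤ) = g.norm := ⟨g.norm.toNat, by omega⟩
  have hV1 : 1 ≤ V := by omega
  obtain ⟨Ac, hAc, hprod⟩ := prod_bound V
  obtain ⟨G, hG⟩ : ∃ G : ℝ, G = ‖((g : GaussianInt) : ℂ)‖ := ⟨_, rfl⟩
  have hG0 : 0 ≤ G := by rw [hG]; exact norm_nonneg _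
  have hGV : G ^ 2 = (V : ℝ) := by
    rw [hG, norm_sq_eq]
    exact_mod_cast hV.symm
  have hVr : (1 : ℝ) ≤ V := by exact_mod_cast hV1
  obtain ⟨m, hm⟩ : ∃ m : ℕ, m = ⌈R * G⌉₊ := ⟨_, rfl⟩
  obtain ⟨K, hK⟩ : ∃ K : ℕ, K = 2 * m + 2 := ⟨_, rfl⟩
  have hK1 : 1 ≤ K := by omega
  obtain ⟨x₀, hx₀⟩ : ∃ x₀ : ℝ, x₀ = (u * (starRingEnd ℂ) (g : ℂ)).re := ⟨_, rfl⟩
  obtain ⟨hc0, hc2⟩ := LinearStrip.small_c K Ac V hK1 hAc hV1
  obtain ⟨Rb, hRb, hbar⟩ := LinearStrip.barrier 0 g hg V hV Ac hAc hprod K hK1 (R + ‖u‖)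
    ⌈T * r * V + x₀⌉
  obtain ⟨t, ht⟩ : ∃ t : ℝ, t = ((Rb : ℝ) + m + 1 - x₀) / (r * V) := ⟨_, rfl⟩
  have hrV : 0 < r * V := by positivity
  have hconj : ((g : GaussianInt) : ℂ) * (starRingEnd ℂ) (g : ℂ) = ((V : ℝ) : ℂ) := by
    rw [Complex.mul_conj, Complex.normSq_eq_norm_sq, ← hG, hGV]
  have hPx : ((u + (t : ℂ) * ((r : ℂ) * (g : ℂ))) * (starRingEnd ℂ) (g : ℂ)).re
      = (Rb : ℝ) + m + 1 := by
    have h1 : (u + (t : ℂ) * ((r : ℂ) * (g : ℂ))) * (starRingEnd ℂ) (g : ℂ)
        = u * (starRingEnd ℂ) (g : ℂ) + ((t * r * V : ℝ) : ℂ) := by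
      have h2 : (u + (t : ℂ) * ((r : ℂ) * (g : ℂ))) * (starRingEnd ℂ) (g : ℂ)
          = u * (starRingEnd ℂ) (g : ℂ)
            + (t : ℂ) * (r : ℂ) * (((g : GaussianInt) : ℂ) * (starRingEnd ℂ) (g : ℂ)) := by
        ring
      rw [h2, hconj]
      push_cast
      ring
    rw [h1, Complex.add_re, Complex.ofReal_re, ← hx₀, ht]
    field_simp
    ring
  refine ⟨t, ?_, ?_⟩
  · have h1 : T * r * V + x₀ ≤ (⌈T * r * V + x₀⌉ : ℝ) := Int.le_ceil _
    have h2 : ((⌈T * r * V + x₀⌉ : ℤ) : ℝ) ≤ (Rb : ℝ) := by exact_mod_cast hRb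
    rw [ht, le_div_iff₀ hrV]
    have h3 : (0 : ℝ) ≤ m := Nat.cast_nonneg _
    nlinarith
  · intro z hz
    by_contra hcon
    rw [not_lt] at hcon
    have hR0 : 0 ≤ R := le_trans (norm_nonneg _) hcon
    have hXre : |(X g z : ℝ) - ((Rb : ℝ) + m + 1)| ≤ m := by
      have h1 := Complex.abs_re_le_norm
        ((((z : GaussianInt) : ℂ) - (u + (t : ℂ) * ((r : ℂ) * (g : ℂ))))
          * (starRingEnd ℂ) (g : ℂ))
      have h0 : ((((z : GaussianInt) : ℂ) - (u + (t : ℂ) * ((r : ℂ) * (g : ℂ))))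
          * (starRingEnd ℂ) (g : ℂ)).re = (X g z : ℝ) - ((Rb : ℝ) + m + 1) := by
        rw [sub_mul, Complex.sub_re, hPx, X_eq_re]
      rw [h0, norm_mul, RCLike.norm_conj, ← hG] at h1
      have h3 : ‖((z : GaussianInt) : ℂ) - (u + (t : ℂ) * ((r : ℂ) * (g : ℂ)))‖ * G ≤ R * G :=
        mul_le_mul_of_nonneg_right hcon hG0
      have h4 : R * G ≤ (m : ℝ) := by
        rw [hm]
        exact Nat.le_ceil _
      linarith
    rw [abs_le] at hXre
    have hlow : Rb < X g z := by
      have : (Rb : ℝ) < (X g z : ℝ) := by linarith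
      exact_mod_cast this
    have hup : X g z ≤ Rb + K := by
      have : (X g z : ℝ) ≤ (Rb : ℝ) + (K : ℝ) := by
        rw [hK]
        push_cast
        linarith
      exact_mod_cast this
    apply hbar z hz hlow hup (t * r)
    have h1 : ((z : GaussianInt) : ℂ) - (((0 : GaussianInt) : ℂ) + ((t * r : ℝ) : ℂ) * (g : ℂ))
        = (((z : GaussianInt) : ℂ) - (u + (t : ℂ) * ((r : ℂ) * (g : ℂ)))) + u := by
      rw [GaussianInt.toComplex_zero]
      push_cast
      ring
    rw [h1]
    have h2 := norm_add_le (((z : GaussianInt) : ℂ) - (u + (t : ℂ) * ((r : ℂ) * (g : ℂ)))) u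
    have hlog : 0 ≤ Real.log ‖((z : GaussianInt) : ℂ)‖ :=
      Real.log_nonneg (one_le_norm_of_ne_zero z hz.ne_zero)
    have h5 : 0 ≤ (1 / (1024 * (K : ℝ) * Ac * V)) * Real.log ‖((z : GaussianInt) : ℂ)‖ :=
      mul_nonneg hc0.le hlog
    linarith

/-- **Gaussian-prime-free disks on every real line.**  For every real line
`{u + t v : t real}` in the complex plane (`u`, `v` arbitrary complex numbers, `v ≠ 0`; the
slope may be irrational and the line need not contain any Gaussian integer), every radius `R`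
and every bound `T`, there is a real `t ≥ T` such that every Gaussian prime `z` lies at distance
greater than `R` from the point `u + t v`: the closed disk of radius `R` centred at that point
of the line contains no Gaussian prime.  Applying it to `-v` gives such disks in the other
direction as well. -/
theorem result (u v : ℂ) (hv : v ≠ 0) (R T : ℝ) :
    ∃ t : ℝ, T ≤ t ∧ ∀ z : GaussianInt, Prime z →
      R < ‖((z : GaussianInt) : ℂ) - (u + t * v)‖ := by
  by_cases hrat : ∃ (g : GaussianInt) (r : ℝ), g ≠ 0 ∧ v = (r : ℂ) * (g : ℂ)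
  · obtain ⟨g, r, hg, hvr⟩ := hrat
    have hr0 : r ≠ 0 := by
      intro h0
      apply hv
      rw [hvr, h0]
      simp
    rcases lt_or_gt_of_ne hr0 with hneg | hpos
    · have hg' : -g ≠ 0 := neg_ne_zero.mpr hg
      have h1 := disks_rat u (-g) hg' (-r) (by linarith) R T
      have h2 : (((-r : ℝ) : ℝ) : ℂ) * (((-g : GaussianInt) : GaussianInt) : ℂ) = v := by
        rw [hvr, GaussianInt.toComplex_neg]
        push_cast
        ring
      rw [h2] at h1
      exact h1
    · have h1 := disks_rat u g hg r hpos R T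
      rw [← hvr] at h1
      exact h1
  · have hre : v.re ≠ 0 := by
      intro h0
      apply hrat
      refine ⟨⟨0, 1⟩, v.im, ?_, ?_⟩
      · intro h
        have := congrArg Zsqrtd.im h
        simp at this
      · apply Complex.ext <;> simp [h0]
    have him : v.im ≠ 0 := by
      intro h0
      apply hrat
      refine ⟨1, v.re, one_ne_zero, ?_⟩
      apply Complex.ext <;> simp [h0]
    have hirr : Irrational (v.im / v.re) := by
      rintro ⟨q, hq⟩
      apply hrat
      have hden : (q.den : ℝ) ≠ 0 := by exact_mod_cast q.den_ne_zero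
      have hq' : v.im = (q.num : ℝ) / q.den * v.re := by
        have h1 : ((q : ℚ) : ℝ) = (q.num : ℝ) / q.den := by
          rw [Rat.cast_def]
        rw [← h1, hq]
        field_simp
      refine ⟨⟨q.den, q.num⟩, v.re / q.den, ?_, ?_⟩
      · intro h
        have := congrArg Zsqrtd.re h
        simp at this
      · apply Complex.ext
        · simp
        · simp
          rw [hq']
          field_simp
    by_cases hsl : |v.im / v.re| ≤ 1
    · exact disks_shallow u v hre hirr hsl R T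
    · apply disks_swap
      have hre' : (Complex.I * (starRingEnd ℂ) v).re = v.im := by simp
      have him' : (Complex.I * (starRingEnd ℂ) v).im = v.re := by simp
      apply disks_shallow
      · rw [hre']
        exact him
      · rw [hre', him']
        have h1 : v.re / v.im = (v.im / v.re)⁻¹ := by rw [inv_div]
        rw [h1]
        exact hirr.inv
      · rw [hre', him']
        have h1 : v.re / v.im = (v.im / v.re)⁻¹ := by rw [inv_div]
        rw [h1, abs_inv]
        rw [not_le] at hsl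
        exact inv_le_one_of_one_le₀ hsl.le

end Vale.Agent.Results.P015.DisksOnEveryLine
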