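import Mathlib

/-!
# P015 (Gaussian moat problem): no bounded-step walk inside a log / log log strip around a
# line through two Gaussian integers, with an arbitrary constant

Let `a ≠ b` be Gaussian integers and let `L` be the real line through them.  For all real
`c`, `C`, `D` there is no infinite sequence of pairwise distinct Gaussian primes with
consecutive Euclidean distances at most `D` all of whose terms `z` lie at a distance `d` from
`L` with `d log (2 + d) ≤ C + c log |z|`.  The region is a neighbourhood of `L` whose half-width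
grows like `c log |z| / log log |z|`, for an arbitrary constant `c`.

Proof idea: a two-stage sieve.  The cells of a barrier are the Gaussian integers `N v + τ`
(`v = b - a`) with `τ` in a box `T` of `K` columns, where `K` exceeds the largest possible
jump.  Stage one uses a fixed finite set of primes `p ≡ 1 (mod 4)` whose factors `1 - 1 / p`
have product below a small `ε` (the sum of the reciprocals of these primes diverges); for each
such `p`, every cell is divisible by a prime above `p` on one residue class of `N` modulo `p`,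
and a greedy choice of the classes kills all cells but a proportion `ε` of them.  Stage two
forces each surviving cell `N v + τ` to be divisible by `M v + τ`, where `M` is the stage-one
residue.  The resulting multiplier `N` has `log N` of order `ε K h log h`, where `h` is the
height of the box, and this beats the width of the region when `ε` is small.
-/

namespace Vale.Agent.Results.P015.RationalLogStrip

open ArithmeticFunction ArithmeticFunction.vonMangoldt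

/-- Key real inequality behind the telescoping argument. -/
theorem rpow_diff (n : ℕ) (hn : 1 ≤ n) (y δ : ℝ) :
    δ * Real.log n / (n : ℝ) ^ (y + δ) ≤ 1 / (n : ℝ) ^ y - 1 / (n : ℝ) ^ (y + δ) := by
  have hn0 : (0 : ℝ) < n := by exact_mod_cast hn
  have h1 : (n : ℝ) ^ (y + δ) = (n : ℝ) ^ y * (n : ℝ) ^ δ := Real.rpow_add hn0 y δ
  have h2 : 1 + δ * Real.log n ≤ (n : ℝ) ^ δ := by
    rw [Real.rpow_def_of_pos hn0]
    have := Real.add_one_le_exp (Real.log n * δ)
    linarith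
  have hy : 0 < (n : ℝ) ^ y := Real.rpow_pos_of_pos hn0 y
  have hd : 0 < (n : ℝ) ^ δ := Real.rpow_pos_of_pos hn0 δ
  have h3 : 1 / (n : ℝ) ^ y - 1 / ((n : ℝ) ^ y * (n : ℝ) ^ δ)
      = ((n : ℝ) ^ δ - 1) / ((n : ℝ) ^ y * (n : ℝ) ^ δ) := by
    field_simp
  rw [h1, h3]
  apply div_le_div_of_nonneg_right _ (mul_pos hy hd).le
  linarith

/-- The exponents `1 + 2 ^ (-j)`. -/
noncomputable def xs (j : ℕ) : ℝ := 1 + (1 / 2 : ℝ) ^ j

theorem xs_gt (j : ℕ) : 1 < xs j := by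
  unfold xs
  have : (0 : ℝ) < (1 / 2 : ℝ) ^ j := by positivity
  linarith

theorem xs_le (j : ℕ) : xs j ≤ 2 := by
  unfold xs
  have : (1 / 2 : ℝ) ^ j ≤ 1 := pow_le_one₀ (by norm_num) (by norm_num)
  linarith

theorem xs_succ (j : ℕ) : xs j = xs (j + 1) + (1 / 2 : ℝ) ^ (j + 1) := by
  unfold xs
  rw [pow_succ]
  ring

/-- Telescoped termwise bound. -/
theorem telescope (n : ℕ) (hn : 1 ≤ n) (J : ℕ) :
    ∑ j ∈ Finset.range J, (1 / 2 : ℝ) ^ (j + 1) * Real.log n / (n : ℝ) ^ (xs j)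
      ≤ 1 / (n : ℝ) ^ (xs J) - 1 / (n : ℝ) ^ (xs 0) := by
  induction J with
  | zero => simp
  | succ J ih =>
    rw [Finset.sum_range_succ]
    have h := rpow_diff n hn (xs (J + 1)) ((1 / 2 : ℝ) ^ (J + 1))
    rw [← xs_succ] at h
    linarith

/-- The sum of the reciprocals of the primes congruent to `1` modulo `4` diverges. -/
theorem not_summable_inv_primes :
    ¬ Summable (fun n : ℕ => if n.Prime ∧ n % 4 = 1 then (1 : ℝ) / n else 0) := by
  intro hS
  have : NeZero (4 : ℕ) := ⟨by norm_num⟩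
  have ha : IsUnit (1 : ZMod 4) := isUnit_one
  obtain ⟨C, hC⟩ := LSeries_residueClass_lower_bound (q := 4) (a := (1 : ZMod 4)) ha
  have hnp := summable_residueClass_non_primes_div (q := 4) (1 : ZMod 4)
  set g : ℕ → ℝ := fun n => (if n.Prime then 0 else residueClass (1 : ZMod 4) n) with hg
  set f : ℕ → ℝ := fun n => (if n.Prime then residueClass (1 : ZMod 4) n else 0) with hf
  set C2 := ∑' n : ℕ, g n / (n : ℝ) with hC2
  set S := ∑' n : ℕ, (if n.Prime ∧ n % 4 = 1 then (1 : ℝ) / n else 0) with hSdef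
  have hg0 : ∀ n, 0 ≤ g n := by
    intro n
    simp only [hg]
    split_ifs
    · exact le_rfl
    · exact residueClass_nonneg _ n
  have hf0 : ∀ n, 0 ≤ f n := by
    intro n
    simp only [hf]
    split_ifs
    · exact residueClass_nonneg _ n
    · exact le_rfl
  have hfg : ∀ n, f n + g n = residueClass (1 : ZMod 4) n := by
    intro n
    simp only [hf, hg]
    split_ifs <;> simp
  have hpowle : ∀ (n : ℕ) (x : ℝ), 1 ≤ x → 1 ≤ n → (n : ℝ) ≤ (n : ℝ) ^ x := by
    intro n x hx hn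
    have h1 : (1 : ℝ) ≤ n := by exact_mod_cast hn
    calc (n : ℝ) = (n : ℝ) ^ (1 : ℝ) := (Real.rpow_one _).symm
      _ ≤ (n : ℝ) ^ x := Real.rpow_le_rpow_of_exponent_le h1 hx
  -- Step A
  have hA : ∀ x : ℝ, 1 < x → x ≤ 2 →
      Summable (fun n : ℕ => f n / (n : ℝ) ^ x) ∧
      ((Nat.totient 4 : ℝ)⁻¹ / (x - 1) - C - C2 ≤ ∑' n : ℕ, f n / (n : ℝ) ^ x) := by
    intro x hx1 hx2
    have hsum : Summable (fun n : ℕ => residueClass (1 : ZMod 4) n / (n : ℝ) ^ x) :=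
      LSeries.summable_real_of_abscissaOfAbsConv_lt <|
        (abscissaOfAbsConv_residueClass_le_one (1 : ZMod 4)).trans_lt <| mod_cast hx1
    have hpos : ∀ n : ℕ, 0 ≤ (n : ℝ) ^ x := fun n => Real.rpow_nonneg (Nat.cast_nonneg n) x
    have hsf : Summable (fun n : ℕ => f n / (n : ℝ) ^ x) := by
      refine Summable.of_nonneg_of_le (fun n => div_nonneg (hf0 n) (hpos n)) (fun n => ?_) hsum
      apply div_le_div_of_nonneg_right _ (hpos n)
      have := hfg n
      linarith [hg0 n]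
    have hsg : Summable (fun n : ℕ => g n / (n : ℝ) ^ x) := by
      refine Summable.of_nonneg_of_le (fun n => div_nonneg (hg0 n) (hpos n)) (fun n => ?_) hsum
      apply div_le_div_of_nonneg_right _ (hpos n)
      have := hfg n
      linarith [hf0 n]
    have hgle : ∑' n : ℕ, g n / (n : ℝ) ^ x ≤ C2 := by
      refine Summable.tsum_le_tsum (fun n => ?_) hsg hnp
      rcases Nat.eq_zero_or_pos n with rfl | hn
      · have : g 0 = 0 := by simp [hg]
        simp [this]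
      · have hn0 : (0 : ℝ) < n := by exact_mod_cast hn
        exact div_le_div_of_nonneg_left (hg0 n) hn0 (hpowle n x hx1.le hn)
    have hadd : ∑' n : ℕ, residueClass (1 : ZMod 4) n / (n : ℝ) ^ x
        = ∑' n : ℕ, f n / (n : ℝ) ^ x + ∑' n : ℕ, g n / (n : ℝ) ^ x := by
      rw [← Summable.tsum_add hsf hsg]
      refine tsum_congr fun n => ?_
      rw [← add_div, hfg]
    have hlow := hC (x := x) ⟨hx1, hx2⟩
    refine ⟨hsf, ?_⟩
    linarith
  -- Step B
  have hB : ∀ (n J : ℕ), ∑ j ∈ Finset.range J, (1 / 2 : ℝ) ^ (j + 1) * (f n / (n : ℝ) ^ (xs j))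
      ≤ (if n.Prime ∧ n % 4 = 1 then (1 : ℝ) / n else 0) := by
    intro n J
    by_cases hn : n.Prime ∧ n % 4 = 1
    · rw [if_pos hn]
      have hn1 : 1 ≤ n := hn.1.one_lt.le
      have hn0 : (0 : ℝ) < n := by exact_mod_cast hn1
      have hfle : f n ≤ Real.log n := by
        simp only [hf, if_pos hn.1]
        exact (residueClass_le _ n).trans vonMangoldt_le_log
      have h1 : ∑ j ∈ Finset.range J, (1 / 2 : ℝ) ^ (j + 1) * (f n / (n : ℝ) ^ (xs j))
          ≤ ∑ j ∈ Finset.range J, (1 / 2 : ℝ) ^ (j + 1) * Real.log n / (n : ℝ) ^ (xs j) := by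
        apply Finset.sum_le_sum
        intro j _
        rw [mul_div_assoc]
        apply mul_le_mul_of_nonneg_left _ (by positivity)
        exact div_le_div_of_nonneg_right hfle (Real.rpow_nonneg hn0.le _)
      have h2 := telescope n hn1 J
      have h3 : 1 / (n : ℝ) ^ (xs J) ≤ 1 / (n : ℝ) :=
        one_div_le_one_div_of_le hn0 (hpowle n _ (xs_gt J).le hn1)
      have h4 : 0 ≤ 1 / (n : ℝ) ^ (xs 0) := by
        have := Real.rpow_nonneg hn0.le (xs 0)
        positivity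
      linarith
    · rw [if_neg hn]
      have hfn : f n = 0 := by
        simp only [hf]
        by_cases hp : n.Prime
        · rw [if_pos hp]
          have h4 : n % 4 ≠ 1 := fun h => hn ⟨hp, h⟩
          have h5 : (n : ZMod 4) ≠ 1 := by
            intro h
            have h6 : (n : ZMod 4) = ((1 : ℕ) : ZMod 4) := by simpa using h
            rw [ZMod.natCast_eq_natCast_iff'] at h6
            exact h4 (by simpa using h6)
          simp [residueClass, h5]
        · rw [if_neg hp]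
      simp [hfn]
  -- Step C
  have hCc : ∀ J : ℕ, ∑ j ∈ Finset.range J, (1 / 2 : ℝ) ^ (j + 1) * ∑' n : ℕ, f n / (n : ℝ) ^ (xs j)
      ≤ S := by
    intro J
    have hsm : ∀ j ∈ Finset.range J,
        Summable (fun n : ℕ => (1 / 2 : ℝ) ^ (j + 1) * (f n / (n : ℝ) ^ (xs j))) := by
      intro j _
      exact ((hA (xs j) (xs_gt j) (xs_le j)).1).mul_left _
    have h1 : ∑ j ∈ Finset.range J, (1 / 2 : ℝ) ^ (j + 1) * ∑' n : ℕ, f n / (n : ℝ) ^ (xs j)
        = ∑' n : ℕ, ∑ j ∈ Finset.range J, (1 / 2 : ℝ) ^ (j + 1) * (f n / (n : ℝ) ^ (xs j)) := by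
      rw [Summable.tsum_finsetSum hsm]
      refine Finset.sum_congr rfl fun j _ => ?_
      rw [tsum_mul_left]
    rw [h1]
    exact Summable.tsum_le_tsum (fun n => hB n J) (summable_sum hsm) hS
  -- Step D
  have htot : (Nat.totient 4 : ℝ) = 2 := by
    have : Nat.totient 4 = 2 := by decide
    rw [this]; norm_num
  have hD : ∀ J : ℕ, (J : ℝ) / 4 - |C + C2| ≤ S := by
    intro J
    refine le_trans ?_ (hCc J)
    have h1 : ∀ j ∈ Finset.range J, (1 / 4 : ℝ) - (1 / 2 : ℝ) ^ (j + 1) * |C + C2|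
        ≤ (1 / 2 : ℝ) ^ (j + 1) * ∑' n : ℕ, f n / (n : ℝ) ^ (xs j) := by
      intro j _
      have h2 := (hA (xs j) (xs_gt j) (xs_le j)).2
      have h3 : xs j - 1 = (1 / 2 : ℝ) ^ j := by unfold xs; ring
      rw [h3, htot] at h2
      have h4 : (0 : ℝ) < (1 / 2 : ℝ) ^ (j + 1) := by positivity
      have h5 : (1 / 2 : ℝ) ^ (j + 1) * ((2 : ℝ)⁻¹ / (1 / 2 : ℝ) ^ j - C - C2)
          ≤ (1 / 2 : ℝ) ^ (j + 1) * ∑' n : ℕ, f n / (n : ℝ) ^ (xs j) :=
        mul_le_mul_of_nonneg_left h2 h4.le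
      have h6 : (1 / 2 : ℝ) ^ (j + 1) * ((2 : ℝ)⁻¹ / (1 / 2 : ℝ) ^ j) = 1 / 4 := by
        have h7 : (0 : ℝ) < (1 / 2 : ℝ) ^ j := by positivity
        rw [pow_succ]
        field_simp
        norm_num
      have h8 : (1 / 2 : ℝ) ^ (j + 1) * (C + C2) ≤ (1 / 2 : ℝ) ^ (j + 1) * |C + C2| :=
        mul_le_mul_of_nonneg_left (le_abs_self _) h4.le
      nlinarith
    have h9 : ∑ j ∈ Finset.range J, ((1 / 4 : ℝ) - (1 / 2 : ℝ) ^ (j + 1) * |C + C2|)
        ≤ ∑ j ∈ Finset.range J, (1 / 2 : ℝ) ^ (j + 1) * ∑' n : ℕ, f n / (n : ℝ) ^ (xs j) :=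
      Finset.sum_le_sum h1
    refine le_trans ?_ h9
    rw [Finset.sum_sub_distrib, Finset.sum_const, Finset.card_range, ← Finset.sum_mul]
    have h10 : ∑ j ∈ Finset.range J, (1 / 2 : ℝ) ^ (j + 1) ≤ 1 := by
      have h11 : ∑ j ∈ Finset.range J, (1 / 2 : ℝ) ^ (j + 1)
          = 1 - (1 / 2 : ℝ) ^ J := by
        induction J with
        | zero => simp
        | succ J ih =>
          rw [Finset.sum_range_succ, ih (fun j hj => h1 j (Finset.mem_range.mpr
            (Nat.lt_succ_of_lt (Finset.mem_range.mp hj)))) (Finset.sum_le_sum fun j hj => h1 j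
            (Finset.mem_range.mpr (Nat.lt_succ_of_lt (Finset.mem_range.mp hj))))]
          rw [pow_succ]
          ring
      rw [h11]
      have : (0 : ℝ) ≤ (1 / 2 : ℝ) ^ J := by positivity
      linarith
    have h12 : (∑ j ∈ Finset.range J, (1 / 2 : ℝ) ^ (j + 1)) * |C + C2| ≤ 1 * |C + C2| :=
      mul_le_mul_of_nonneg_right h10 (abs_nonneg _)
    simp only [nsmul_eq_mul]
    linarith
  have hfin := hD (⌈4 * (S + |C + C2|)⌉₊ + 1)
  have hceil : 4 * (S + |C + C2|) ≤ (⌈4 * (S + |C + C2|)⌉₊ : ℝ) := Nat.le_ceil _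
  push_cast at hfin
  linarith

/-- A finite set of primes `p ≡ 1 (mod 4)`, all larger than `V`, for which the product of the
factors `1 - 1 / p` is at most `ε`. -/
theorem exists_prime_set (V : ℕ) (ε : ℝ) (hε : 0 < ε) :
    ∃ F : Finset ℕ, (∀ p ∈ F, p.Prime ∧ p % 4 = 1 ∧ V < p) ∧
      ∏ p ∈ F, (1 - 1 / (p : ℝ)) ≤ ε := by
  set f : ℕ → ℝ := fun n => if n.Prime ∧ n % 4 = 1 then (1 : ℝ) / n else 0 with hf
  have hf0 : ∀ n, 0 ≤ f n := by
    intro n
    simp only [hf]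
    split_ifs
    · positivity
    · exact le_rfl
  have hf1 : ∀ n, f n ≤ 1 := by
    intro n
    simp only [hf]
    split_ifs with h
    · have h1 : (1 : ℝ) ≤ n := by exact_mod_cast h.1.one_lt.le
      rw [div_le_one (by linarith)]
      exact h1
    · exact zero_le_one
  have htend := (not_summable_iff_tendsto_nat_atTop_of_nonneg hf0).mp not_summable_inv_primes
  obtain ⟨n, hn⟩ := (htend.eventually_ge_atTop ((V : ℝ) + 1 - Real.log ε)).exists
  refine ⟨(Finset.range n).filter (fun p => p.Prime ∧ p % 4 = 1 ∧ V < p), ?_, ?_⟩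
  · intro p hp
    exact (Finset.mem_filter.mp hp).2
  · have hsplit := Finset.sum_filter_add_sum_filter_not (Finset.range n) (fun i => V < i) f
    have hsmall : ∑ i ∈ (Finset.range n).filter (fun i => ¬ V < i), f i ≤ (V : ℝ) + 1 := by
      have h1 : ∑ i ∈ (Finset.range n).filter (fun i => ¬ V < i), f i
          ≤ ∑ i ∈ Finset.range (V + 1), f i := by
        apply Finset.sum_le_sum_of_subset_of_nonneg
        · intro i hi
          rw [Finset.mem_filter] at hi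
          rw [Finset.mem_range]
          omega
        · intro i _ _
          exact hf0 i
      have h2 : ∑ i ∈ Finset.range (V + 1), f i ≤ ∑ i ∈ Finset.range (V + 1), (1 : ℝ) :=
        Finset.sum_le_sum fun i _ => hf1 i
      rw [Finset.sum_const, Finset.card_range] at h2
      simp only [nsmul_eq_mul, mul_one] at h2
      push_cast at h2
      linarith
    have hbig : ∑ i ∈ (Finset.range n).filter (fun i => V < i), f i
        = ∑ p ∈ (Finset.range n).filter (fun p => p.Prime ∧ p % 4 = 1 ∧ V < p), (1 : ℝ) / p := by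
      rw [Finset.sum_filter, Finset.sum_filter]
      apply Finset.sum_congr rfl
      intro i _
      simp only [hf]
      by_cases h1 : V < i
      · by_cases h2 : i.Prime ∧ i % 4 = 1
        · rw [if_pos h1, if_pos h2, if_pos ⟨h2.1, h2.2, h1⟩]
        · rw [if_pos h1, if_neg h2, if_neg (fun h => h2 ⟨h.1, h.2.1⟩)]
      · rw [if_neg h1, if_neg (fun h => h1 h.2.2)]
    have hge : -Real.log ε
        ≤ ∑ p ∈ (Finset.range n).filter (fun p => p.Prime ∧ p % 4 = 1 ∧ V < p), (1 : ℝ) / p := by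
      rw [← hbig]
      linarith
    have hprod : ∏ p ∈ (Finset.range n).filter (fun p => p.Prime ∧ p % 4 = 1 ∧ V < p),
        (1 - 1 / (p : ℝ))
        ≤ ∏ p ∈ (Finset.range n).filter (fun p => p.Prime ∧ p % 4 = 1 ∧ V < p),
          Real.exp (-(1 / (p : ℝ))) := by
      apply Finset.prod_le_prod
      · intro p hp
        have hpp := (Finset.mem_filter.mp hp).2.1
        have h1 : (1 : ℝ) ≤ p := by exact_mod_cast hpp.one_lt.le
        have h2 : 1 / (p : ℝ) ≤ 1 := by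
          rw [div_le_one (by linarith)]
          exact h1
        linarith
      · intro p _
        exact Real.one_sub_le_exp_neg _
    refine hprod.trans ?_
    rw [← Real.exp_sum, Finset.sum_neg_distrib]
    calc Real.exp (-∑ p ∈ (Finset.range n).filter (fun p => p.Prime ∧ p % 4 = 1 ∧ V < p),
          (1 : ℝ) / p) ≤ Real.exp (Real.log ε) := Real.exp_le_exp.mpr (by linarith)
      _ = ε := Real.exp_log hε

/-- Greedy sieve: for a finite set of primes `F` and residue classes `kill p τ` attached to the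
elements `τ` of a finite set `T`, some residue `M` (to all the moduli in `F` at once) agrees with
the attached class for all but a proportion `∏ (1 - 1 / p)` of the elements. -/
theorem greedy {ι : Type} [DecidableEq ι] (kill : ℕ → ι → ℕ) (T : Finset ι) (F : Finset ℕ)
    (hF : ∀ p ∈ F, p.Prime) :
    ∃ (M : ℕ) (S : Finset ι), S ⊆ T ∧
      (S.card : ℝ) ≤ T.card * ∏ p ∈ F, (1 - 1 / (p : ℝ)) ∧
      ∀ τ ∈ T, τ ∉ S → ∃ p ∈ F, M % p = kill p τ % p := by
  induction F using Finset.induction_on with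
  | empty =>
    refine ⟨0, T, Finset.Subset.refl T, ?_, ?_⟩
    · simp
    · intro τ hτ hτ'
      exact absurd hτ hτ'
  | insert p F hpF ih =>
    obtain ⟨M', S', hS'T, hcard, hkill⟩ := ih (fun q hq => hF q (Finset.mem_insert_of_mem hq))
    have hp : p.Prime := hF p (Finset.mem_insert_self p F)
    have hp0 : 0 < p := hp.pos
    have hmaps : ∀ τ ∈ S', kill p τ % p ∈ Finset.range p := by
      intro τ _
      exact Finset.mem_range.mpr (Nat.mod_lt _ hp0)
    have hne : (Finset.range p).Nonempty := ⟨0, Finset.mem_range.mpr hp0⟩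
    obtain ⟨r, hr, hfib⟩ := Finset.exists_le_card_fiber_of_nsmul_le_card_of_maps_to
      (s := S') (t := Finset.range p) (f := fun τ => kill p τ % p) (b := (S'.card : ℝ) / p)
      hmaps hne (by
        rw [Finset.card_range, nsmul_eq_mul]
        have : (p : ℝ) ≠ 0 := by exact_mod_cast hp0.ne'
        rw [mul_div_cancel₀ _ this])
    have hrp : r < p := Finset.mem_range.mp hr
    have hcop : Nat.Coprime p (∏ q ∈ F, q) := by
      apply Nat.Coprime.prod_right
      intro q hq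
      have hq' : q.Prime := hF q (Finset.mem_insert_of_mem hq)
      rw [Nat.coprime_primes hp hq']
      rintro rfl
      exact hpF hq
    obtain ⟨M, hM1, hM2⟩ := Nat.chineseRemainder hcop r M'
    refine ⟨M, S'.filter (fun τ => kill p τ % p ≠ r), ?_, ?_, ?_⟩
    · exact (Finset.filter_subset _ _).trans hS'T
    · have hsplit := Finset.card_filter_add_card_filter_not (s := S') (fun τ => kill p τ % p = r)
      have hsplit' : ((S'.filter (fun τ => kill p τ % p = r)).card : ℝ)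
          + ((S'.filter (fun τ => ¬ kill p τ % p = r)).card : ℝ) = S'.card := by
        exact_mod_cast hsplit
      rw [Finset.prod_insert hpF]
      have hpr : (0 : ℝ) < p := by exact_mod_cast hp0
      have h1 : ((S'.filter (fun τ => kill p τ % p ≠ r)).card : ℝ)
          ≤ (S'.card : ℝ) * (1 - 1 / (p : ℝ)) := by
        have h2 : (S'.card : ℝ) * (1 - 1 / (p : ℝ)) = S'.card - (S'.card : ℝ) / p := by ring
        rw [h2]
        linarith
      have h3 : (0 : ℝ) ≤ 1 - 1 / (p : ℝ) := by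
        have h4 : (1 : ℝ) ≤ p := by exact_mod_cast hp.one_lt.le
        have h5 : 1 / (p : ℝ) ≤ 1 := by
          rw [div_le_one hpr]
          exact h4
        linarith
      calc ((S'.filter (fun τ => kill p τ % p ≠ r)).card : ℝ)
          ≤ (S'.card : ℝ) * (1 - 1 / (p : ℝ)) := h1
        _ ≤ ((T.card : ℝ) * ∏ q ∈ F, (1 - 1 / (q : ℝ))) * (1 - 1 / (p : ℝ)) :=
            mul_le_mul_of_nonneg_right hcard h3
        _ = (T.card : ℝ) * ((1 - 1 / (p : ℝ)) * ∏ q ∈ F, (1 - 1 / (q : ℝ))) := by ring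
    · intro τ hτ hτS
      by_cases hτS' : τ ∈ S'
      · have hk : kill p τ % p = r := by
          by_contra hne'
          exact hτS (Finset.mem_filter.mpr ⟨hτS', hne'⟩)
        refine ⟨p, Finset.mem_insert_self p F, ?_⟩
        rw [hk]
        have := hM1
        unfold Nat.ModEq at this
        rw [this, Nat.mod_eq_of_lt hrp]
      · obtain ⟨q, hq, hq'⟩ := hkill τ hτ hτS'
        refine ⟨q, Finset.mem_insert_of_mem hq, ?_⟩
        rw [← hq']
        exact Nat.ModEq.of_dvd (Finset.dvd_prod_of_mem (fun q => q) hq) hM2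

open GaussianInt

/-- A Gaussian prime whose norm is divisible by the rational prime `p` has norm at most `p ^ 2`. -/
theorem not_prime_of_dvd_norm (z : GaussianInt) (p : ℕ) (hp : p.Prime)
    (hpn : (p : ℤ) ∣ z.norm) (hlt : (p : ℤ) ^ 2 < z.norm) : ¬ Prime z := by
  intro hprime
  have key : ∀ q : GaussianInt, ¬ IsUnit q → q ∣ z → q ∣ (p : GaussianInt) → False := by
    intro q hq hqz hqp
    obtain ⟨u, hu⟩ := hqz
    have hunit : IsUnit u := by
      rcases hprime.irreducible.isUnit_or_isUnit hu with h | h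
      · exact absurd h hq
      · exact h
    have hdvd : z ∣ (p : GaussianInt) := by
      obtain ⟨u', hu'⟩ := hunit.exists_right_inv
      have : q = z * u' := by
        rw [hu, mul_assoc, hu', mul_one]
      exact Dvd.dvd.trans ⟨u', this⟩ hqp
    obtain ⟨t, ht⟩ := hdvd
    have hn : ((p : GaussianInt)).norm = z.norm * t.norm := by
      conv_lhs => rw [ht]
      exact Zsqrtd.norm_mul _ _
    rw [Zsqrtd.norm_natCast] at hn
    have ht0 : 0 ≤ t.norm := GaussianInt.norm_nonneg _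
    have hp0 : (0 : ℤ) < p := by exact_mod_cast hp.pos
    rcases eq_or_lt_of_le ht0 with h0 | hpos
    · rw [← h0, mul_zero] at hn
      nlinarith
    · nlinarith
  have hpnu : ¬ IsUnit (p : GaussianInt) := by
    rw [Zsqrtd.isUnit_iff_norm_isUnit, Zsqrtd.norm_natCast, Int.isUnit_iff_natAbs_eq]
    have := hp.two_le
    intro h
    have h2 : ((p : ℤ) * p).natAbs = p * p := by
      rw [Int.natAbs_mul]; simp
    rw [h2] at h
    nlinarith
  have hp0 : (p : GaussianInt) ≠ 0 := by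
    have := hp.pos
    intro h
    have h3 : ((p : GaussianInt)).norm = 0 := by rw [h]; simp
    rw [Zsqrtd.norm_natCast] at h3
    have : (p : ℤ) = 0 := by nlinarith
    omega
  obtain ⟨π, hπirr, hπp⟩ := WfDvdMonoid.exists_irreducible_factor hpnu hp0
  have hπprime : Prime π := hπirr.prime
  have hpz : (p : GaussianInt) ∣ z * star z := by
    rw [← Zsqrtd.norm_eq_mul_conj]
    obtain ⟨k, hk⟩ := hpn
    exact ⟨(k : GaussianInt), by rw [hk]; push_cast; ring⟩
  rcases hπprime.dvd_or_dvd (hπp.trans hpz) with h | h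
  · exact key π hπirr.not_isUnit h hπp
  · have h1 : star π ∣ z := by
      obtain ⟨t, ht⟩ := h
      exact ⟨star t, by rw [← star_mul', ← ht, star_star]⟩
    have h2 : star π ∣ (p : GaussianInt) := by
      obtain ⟨t, ht⟩ := hπp
      refine ⟨star t, ?_⟩
      rw [← star_mul', ← ht]
      ext <;> simp
    have h3 : ¬ IsUnit (star π) := by
      rw [Zsqrtd.isUnit_iff_norm_isUnit, Zsqrtd.norm_conj, ← Zsqrtd.isUnit_iff_norm_isUnit]
      exact hπirr.not_isUnit
    exact key (star π) h3 h1 h2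

/-- A Gaussian integer with a proper divisor of norm larger than `1` is not prime. -/
theorem not_prime_of_dvd (w z : GaussianInt) (hwz : w ∣ z) (h1 : 1 < w.norm)
    (h2 : w.norm < z.norm) : ¬ Prime z := by
  intro hprime
  obtain ⟨u, hu⟩ := hwz
  have hn : z.norm = w.norm * u.norm := by
    conv_lhs => rw [hu]
    exact Zsqrtd.norm_mul _ _
  rcases hprime.irreducible.isUnit_or_isUnit hu with h | h
  · rw [Zsqrtd.isUnit_iff_norm_isUnit, Int.isUnit_iff] at h
    omega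
  · rw [Zsqrtd.isUnit_iff_norm_isUnit, Int.isUnit_iff] at h
    rcases h with h | h
    · rw [h, mul_one] at hn
      omega
    · have := GaussianInt.norm_nonneg u
      omega

/-- For a prime `p ≡ 1 (mod 4)` not dividing the norm of `v`, and any `τ`, there is a residue
class of `N` modulo `p` on which `p` divides the norm of `N v + τ`. -/
theorem exists_kill (v : GaussianInt) (p : ℕ) (hp : p.Prime) (hp4 : p % 4 = 1)
    (hpv : ¬ (p : ℤ) ∣ v.norm) (τ : GaussianInt) :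
    ∃ r : ℕ, ∀ N : ℕ, N % p = r % p → (p : ℤ) ∣ ((N : GaussianInt) * v + τ).norm := by
  have hfact : Fact p.Prime := Fact.mk hp
  obtain ⟨s, hs⟩ : IsSquare (-1 : ZMod p) := ZMod.exists_sq_eq_neg_one_iff.mpr (by omega)
  set A : ZMod p := (v.re : ZMod p) + s * v.im with hA
  have hA0 : A ≠ 0 := by
    intro h
    apply hpv
    rw [← ZMod.intCast_zmod_eq_zero_iff_dvd]
    have h1 : ((v.norm : ℤ) : ZMod p) = A * ((v.re : ZMod p) - s * v.im) := by
      rw [hA, Zsqrtd.norm_def]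
      push_cast
      linear_combination (-((v.im : ZMod p) * (v.im : ZMod p))) * hs
    rw [h1, h, zero_mul]
  refine ⟨(-((τ.re : ZMod p) + s * τ.im) / A : ZMod p).val, fun N hN => ?_⟩
  have hN' : (N : ZMod p) = -((τ.re : ZMod p) + s * τ.im) / A := by
    have h1 := (ZMod.natCast_eq_natCast_iff' N _ p).mpr hN
    rw [h1, ZMod.natCast_zmod_val]
  have key : (N : ZMod p) * A + ((τ.re : ZMod p) + s * τ.im) = 0 := by
    rw [hN']
    field_simp
    ring
  rw [← ZMod.intCast_zmod_eq_zero_iff_dvd]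
  have h2 : ((((N : GaussianInt) * v + τ).norm : ℤ) : ZMod p)
      = ((N : ZMod p) * v.re + τ.re) ^ 2 + ((N : ZMod p) * v.im + τ.im) ^ 2 := by
    rw [Zsqrtd.norm_def]
    simp
    ring
  rw [h2]
  have hx : ((N : ZMod p) * v.re + τ.re) = -s * ((N : ZMod p) * v.im + τ.im) := by
    rw [hA] at key
    linear_combination key
  rw [hx]
  linear_combination (-(((N : ZMod p) * v.im + τ.im) ^ 2)) * hs

/-- Real-variable core of the region estimate. -/
theorem real_key (d d₁ c C A nw : ℝ) (hc : 0 ≤ c) (hcd : c ≤ d₁) (hd : d₁ ≤ d) (hA : 1 ≤ A)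
    (hnw0 : 0 < nw) (hnw : nw ≤ A * (1 + d))
    (hreg : d * Real.log (2 + d) ≤ C + c * Real.log nw) :
    (d₁ - c) * Real.log (2 + d₁) ≤ C + c * Real.log A := by
  have hd0 : 0 ≤ d := hc.trans (hcd.trans hd)
  have hd10 : 0 ≤ d₁ := hc.trans hcd
  have h1 : Real.log nw ≤ Real.log A + Real.log (2 + d) := by
    have h2 : Real.log nw ≤ Real.log (A * (1 + d)) := Real.log_le_log hnw0 hnw
    rw [Real.log_mul (by linarith) (by linarith)] at h2
    have h3 : Real.log (1 + d) ≤ Real.log (2 + d) := Real.log_le_log (by linarith) (by linarith)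
    linarith
  have h4 : c * Real.log nw ≤ c * (Real.log A + Real.log (2 + d)) :=
    mul_le_mul_of_nonneg_left h1 hc
  have h5 : (d - c) * Real.log (2 + d) ≤ C + c * Real.log A := by
    have : (d - c) * Real.log (2 + d) = d * Real.log (2 + d) - c * Real.log (2 + d) := by ring
    rw [this]
    have : c * (Real.log A + Real.log (2 + d)) = c * Real.log A + c * Real.log (2 + d) := by ring
    linarith
  have h6 : Real.log (2 + d₁) ≤ Real.log (2 + d) := Real.log_le_log (by linarith) (by linarith)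
  have h7 : 0 ≤ Real.log (2 + d₁) := Real.log_nonneg (by linarith)
  have h8 : (d₁ - c) * Real.log (2 + d₁) ≤ (d - c) * Real.log (2 + d) :=
    mul_le_mul (by linarith) h6 h7 (by linarith)
  linarith

/-- The final numerical inequality: for `h` large the region is too narrow at the barrier. -/
theorem final_ineq (V c C₁ β₁ h : ℝ) (hV : 1 ≤ V) (hβ : 1 ≤ β₁)
    (h1 : 2 * c * V ≤ h) (h2 : 4 * V ^ 2 * β₁ ≤ h) (h3 : 4 * V * C₁ < h) :
    C₁ + h / (4 * V) * (Real.log β₁ + Real.log h) < (h / V - c) * Real.log (2 + h / V) := by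
  have hV0 : 0 < V := by linarith
  have hh0 : 0 < h := by nlinarith
  have hVh : V ≤ h := by nlinarith [sq_nonneg V, sq_nonneg (V - 1)]
  have hlogV : 0 ≤ Real.log V := Real.log_nonneg hV
  have hlogβ : 0 ≤ Real.log β₁ := Real.log_nonneg hβ
  have hlogh : Real.log 4 + 2 * Real.log V + Real.log β₁ ≤ Real.log h := by
    have h4 : Real.log (4 * V ^ 2 * β₁) ≤ Real.log h := Real.log_le_log (by positivity) h2
    rw [Real.log_mul (by positivity) (by positivity), Real.log_mul (by norm_num) (by positivity),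
      Real.log_pow] at h4
    push_cast at h4
    linarith
  have hlog4 : 1 < Real.log 4 := by
    have h5 : Real.log 4 = 2 * Real.log 2 := by
      rw [show (4 : ℝ) = 2 ^ 2 by norm_num, Real.log_pow]
      push_cast
      ring
    have := Real.log_two_gt_d9
    rw [h5]
    linarith
  have hdiv : h / V - c ≥ h / (2 * V) := by
    have h6 : c ≤ h / (2 * V) := by
      rw [le_div_iff₀ (by linarith)]
      linarith
    have h7 : h / V = 2 * (h / (2 * V)) := by field_simp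
    linarith
  have hlog2 : Real.log h - Real.log V ≤ Real.log (2 + h / V) := by
    rw [← Real.log_div hh0.ne' hV0.ne']
    apply Real.log_le_log (by positivity)
    linarith
  have hq : 0 < h / (4 * V) := by positivity
  have hq2 : h / (2 * V) = 2 * (h / (4 * V)) := by field_simp; ring
  have hC : C₁ < h / (4 * V) := by
    rw [lt_div_iff₀ (by linarith)]
    linarith
  have hpos1 : 0 ≤ Real.log h - Real.log V := by linarith
  have step1 : h / (2 * V) * (Real.log h - Real.log V) ≤ (h / V - c) * Real.log (2 + h / V) :=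
    mul_le_mul hdiv hlog2 hpos1 (by linarith)
  have step2 : C₁ + h / (4 * V) * (Real.log β₁ + Real.log h)
      < h / (2 * V) * (Real.log h - Real.log V) := by
    rw [hq2]
    have h8 : h / (4 * V) * 1 ≤ h / (4 * V) * (Real.log h - 2 * Real.log V - Real.log β₁) :=
      mul_le_mul_of_nonneg_left (by linarith) hq.le
    nlinarith
  linarith

/-- Coordinate along the direction `v` (scaled by the norm of `v`). -/
def X (v w : GaussianInt) : ℤ := w.re * v.re + w.im * v.im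

/-- Coordinate across the direction `v` (scaled by the norm of `v`). -/
def Y (v w : GaussianInt) : ℤ := w.im * v.re - w.re * v.im

theorem X_sq_add_Y_sq (v w : GaussianInt) : X v w ^ 2 + Y v w ^ 2 = w.norm * v.norm := by
  simp only [X, Y, Zsqrtd.norm_def]
  ring

theorem X_cell (v τ : GaussianInt) (N : ℕ) :
    X v ((N : GaussianInt) * v + τ) = N * v.norm + X v τ := by
  simp [X, Zsqrtd.norm_def]
  ring

theorem Y_cell (v τ : GaussianInt) (N : ℕ) : Y v ((N : GaussianInt) * v + τ) = Y v τ := by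
  simp [Y]
  ring

theorem X_neg (v w : GaussianInt) : X (-v) w = -X v w := by
  simp [X]
  ring

theorem step_X (v w w' : GaussianInt) (D : ℝ) (h : ‖(w' : ℂ) - (w : ℂ)‖ ≤ D) :
    |(X v w' : ℝ) - (X v w : ℝ)| ≤ ‖(v : ℂ)‖ * D := by
  have h1 : (X v w' : ℝ) - (X v w : ℝ) = (((w' : ℂ) - (w : ℂ)) * (starRingEnd ℂ) (v : ℂ)).re := by
    simp [X, Complex.mul_re]
    ring
  rw [h1]
  calc |(((w' : ℂ) - (w : ℂ)) * (starRingEnd ℂ) (v : ℂ)).re|
      ≤ ‖((w' : ℂ) - (w : ℂ)) * (starRingEnd ℂ) (v : ℂ)‖ := Complex.abs_re_le_norm _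
    _ = ‖(w' : ℂ) - (w : ℂ)‖ * ‖(v : ℂ)‖ := by rw [norm_mul, RCLike.norm_conj]
    _ ≤ ‖(v : ℂ)‖ * D := by
        rw [mul_comm]
        exact mul_le_mul_of_nonneg_left h (_root_.norm_nonneg _)

theorem dist_Y (a v w : GaussianInt) (t : ℝ) :
    |(Y v w : ℝ) - (Y v a : ℝ)| ≤ ‖(v : ℂ)‖ * ‖(w : ℂ) - ((a : ℂ) + t * (v : ℂ))‖ := by
  have h1 : (Y v w : ℝ) - (Y v a : ℝ)
      = (((w : ℂ) - ((a : ℂ) + t * (v : ℂ))) * (starRingEnd ℂ) (v : ℂ)).im := by
    simp [Y, Complex.mul_im]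
    ring
  rw [h1]
  calc |(((w : ℂ) - ((a : ℂ) + t * (v : ℂ))) * (starRingEnd ℂ) (v : ℂ)).im|
      ≤ ‖((w : ℂ) - ((a : ℂ) + t * (v : ℂ))) * (starRingEnd ℂ) (v : ℂ)‖ :=
        Complex.abs_im_le_norm _
    _ = ‖(v : ℂ)‖ * ‖(w : ℂ) - ((a : ℂ) + t * (v : ℂ))‖ := by
        rw [norm_mul, RCLike.norm_conj, mul_comm]

theorem norm_sq_eq (w : GaussianInt) : ‖(w : ℂ)‖ ^ 2 = (w.norm : ℝ) := by
  rw [GaussianInt.intCast_real_norm, Complex.normSq_eq_norm_sq]

theorem norm_le_X_add_Y (v w : GaussianInt) (hv : v ≠ 0) :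
    ‖(w : ℂ)‖ ≤ |(X v w : ℝ)| + |(Y v w : ℝ)| := by
  have hvn : 1 ≤ v.norm := GaussianInt.norm_pos.mpr hv
  have hwn : 0 ≤ w.norm := GaussianInt.norm_nonneg w
  have h1 : w.norm ≤ X v w ^ 2 + Y v w ^ 2 := by
    rw [X_sq_add_Y_sq]
    nlinarith
  have h2 : (w.norm : ℝ) ≤ (X v w : ℝ) ^ 2 + (Y v w : ℝ) ^ 2 := by exact_mod_cast h1
  have h3 : ‖(w : ℂ)‖ ^ 2 ≤ (|(X v w : ℝ)| + |(Y v w : ℝ)|) ^ 2 := by
    rw [norm_sq_eq]
    have h4 : (|(X v w : ℝ)| + |(Y v w : ℝ)|) ^ 2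
        = (X v w : ℝ) ^ 2 + (Y v w : ℝ) ^ 2 + 2 * (|(X v w : ℝ)| * |(Y v w : ℝ)|) := by
      rw [add_sq, sq_abs, sq_abs]
      ring
    rw [h4]
    have : 0 ≤ |(X v w : ℝ)| * |(Y v w : ℝ)| := by positivity
    linarith
  exact (pow_le_pow_iff_left₀ (_root_.norm_nonneg _) (by positivity) (by norm_num)).mp h3

theorem norm_v_le (v : GaussianInt) (hv : v ≠ 0) :
    1 ≤ ‖(v : ℂ)‖ ∧ ‖(v : ℂ)‖ ≤ (v.norm : ℝ) := by
  have hvn : 1 ≤ v.norm := GaussianInt.norm_pos.mpr hv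
  have h1 : (1 : ℝ) ≤ (v.norm : ℝ) := by exact_mod_cast hvn
  rw [← norm_sq_eq] at h1 ⊢
  have h0 : 0 ≤ ‖(v : ℂ)‖ := _root_.norm_nonneg _
  constructor
  · nlinarith
  · nlinarith

theorem XY_inj (v : GaussianInt) (hv : v ≠ 0) (τ τ' : GaussianInt) (hX : X v τ = X v τ')
    (hY : Y v τ = Y v τ') : τ = τ' := by
  have hvn : 1 ≤ v.norm := GaussianInt.norm_pos.mpr hv
  have h1 : X v (τ - τ') = 0 := by
    have : X v (τ - τ') = X v τ - X v τ' := by
      simp [X]
      ring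
    rw [this, hX, sub_self]
  have h2 : Y v (τ - τ') = 0 := by
    have : Y v (τ - τ') = Y v τ - Y v τ' := by
      simp [Y]
      ring
    rw [this, hY, sub_self]
  have h3 := X_sq_add_Y_sq v (τ - τ')
  rw [h1, h2] at h3
  have h4 : (τ - τ').norm = 0 := by
    have h5 := GaussianInt.norm_nonneg (τ - τ')
    nlinarith
  by_contra hne
  have h6 : 0 < (τ - τ').norm := GaussianInt.norm_pos.mpr (sub_ne_zero.mpr hne)
  omega

theorem cell_norm_mul (v τ : GaussianInt) (M : ℕ) :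
    ((M : GaussianInt) * v + τ).norm * v.norm = (M * v.norm + X v τ) ^ 2 + (Y v τ) ^ 2 := by
  rw [← X_sq_add_Y_sq, X_cell, Y_cell]

theorem cell_norm_gt_one (v τ : GaussianInt) (hv : 1 ≤ v.norm) (M : ℕ)
    (hX : 2 * v.norm < X v τ) : 1 < ((M : GaussianInt) * v + τ).norm := by
  have h := cell_norm_mul v τ M
  by_contra hcon
  rw [not_lt] at hcon
  have hM : (0 : ℤ) ≤ M := Nat.cast_nonneg M
  have h1 : ((M : GaussianInt) * v + τ).norm * v.norm ≤ 1 * v.norm :=
    mul_le_mul_of_nonneg_right hcon (by linarith)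
  have h2 : 2 * v.norm + 1 ≤ M * v.norm + X v τ := by
    have : 0 ≤ (M : ℤ) * v.norm := mul_nonneg hM (by linarith)
    linarith
  have h3 : (2 * v.norm + 1) ^ 2 ≤ (M * v.norm + X v τ) ^ 2 := by nlinarith
  nlinarith [sq_nonneg (Y v τ)]

theorem cell_norm_lt (v τ : GaussianInt) (hv : 1 ≤ v.norm) (M N : ℕ) (hMN : M < N)
    (hX : 0 < X v τ) : ((M : GaussianInt) * v + τ).norm < ((N : GaussianInt) * v + τ).norm := by
  have h1 := cell_norm_mul v τ M
  have h2 := cell_norm_mul v τ N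
  have hM : (M : ℤ) + 1 ≤ N := by exact_mod_cast hMN
  have hM0 : (0 : ℤ) ≤ M := Nat.cast_nonneg M
  have h3 : M * v.norm + X v τ < N * v.norm + X v τ := by nlinarith
  have h4 : 0 < M * v.norm + X v τ := by
    have : 0 ≤ (M : ℤ) * v.norm := mul_nonneg hM0 (by linarith)
    linarith
  have h5 : (M * v.norm + X v τ) ^ 2 < (N * v.norm + X v τ) ^ 2 := by nlinarith
  by_contra hcon
  rw [not_lt] at hcon
  have := mul_le_mul_of_nonneg_right hcon (by linarith : (0 : ℤ) ≤ v.norm)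
  linarith

theorem cell_norm_gt_sq (v τ : GaussianInt) (hv : 1 ≤ v.norm) (N : ℕ) (hX : 0 < X v τ) :
    (N : ℤ) ^ 2 < ((N : GaussianInt) * v + τ).norm := by
  have h2 := cell_norm_mul v τ N
  have hN0 : (0 : ℤ) ≤ N := Nat.cast_nonneg N
  by_contra hcon
  rw [not_lt] at hcon
  have h3 : ((N : GaussianInt) * v + τ).norm * v.norm ≤ (N : ℤ) ^ 2 * v.norm :=
    mul_le_mul_of_nonneg_right hcon (by linarith)
  have h6 : 0 ≤ (N : ℤ) * v.norm := mul_nonneg hN0 (by linarith)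
  have h4 : ((N : ℤ) * v.norm) ^ 2 < (N * v.norm + X v τ) ^ 2 := by nlinarith
  have h5 : (N : ℤ) ^ 2 * v.norm ≤ ((N : ℤ) * v.norm) ^ 2 := by
    have : ((N : ℤ) * v.norm) ^ 2 = (N : ℤ) ^ 2 * v.norm * v.norm := by ring
    rw [this]
    have : 0 ≤ (N : ℤ) ^ 2 * v.norm := by positivity
    nlinarith
  nlinarith [sq_nonneg (Y v τ)]

theorem cell_norm_le (v τ : GaussianInt) (hv : 1 ≤ v.norm) (M : ℕ) :
    ((M : GaussianInt) * v + τ).norm ≤ (M * v.norm + X v τ) ^ 2 + (Y v τ) ^ 2 := by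
  rw [← cell_norm_mul]
  nlinarith [GaussianInt.norm_nonneg ((M : GaussianInt) * v + τ)]

/-- The two-stage sieve: a multiplier `N` making all the cells `N v + τ`, `τ ∈ T`, composite,
with a bound on its size. -/
theorem sieve (v : GaussianInt) (hv : 1 ≤ v.norm) (F : Finset ℕ)
    (hF : ∀ p ∈ F, p.Prime ∧ p % 4 = 1 ∧ ¬ (p : ℤ) ∣ v.norm) (T : Finset GaussianInt)
    (hT : ∀ τ ∈ T, 2 * v.norm < X v τ) (t₀ B : ℕ) (ht₀ : 1 ≤ t₀)
    (hB : ∀ τ ∈ T, ∀ M : ℕ, M < ∏ p ∈ F, p → ((M : GaussianInt) * v + τ).norm ≤ B) :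
    ∃ N s : ℕ, t₀ ≤ N ∧ N ≤ 2 * (∏ p ∈ F, p) * t₀ * B ^ s ∧
      (s : ℝ) ≤ T.card * ∏ p ∈ F, (1 - 1 / (p : ℝ)) ∧
      ∀ τ ∈ T, ¬ Prime ((N : GaussianInt) * v + τ) := by
  have hFprime : ∀ p ∈ F, p.Prime := fun p hp => (hF p hp).1
  have hP₀ : 1 ≤ ∏ p ∈ F, p :=
    Nat.one_le_iff_ne_zero.mpr (Finset.prod_ne_zero_iff.mpr fun p hp => (hFprime p hp).ne_zero)
  have hk : ∀ p ∈ F, ∀ τ : GaussianInt, ∃ r : ℕ, ∀ N : ℕ, N % p = r % p →
      (p : ℤ) ∣ ((N : GaussianInt) * v + τ).norm :=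
    fun p hp τ => exists_kill v p (hF p hp).1 (hF p hp).2.1 (hF p hp).2.2 τ
  choose! kill hkill using hk
  obtain ⟨M', S, hST, hScard, hSkill⟩ := greedy kill T F hFprime
  have hM₁lt : M' % (∏ p ∈ F, p) < ∏ p ∈ F, p := Nat.mod_lt _ hP₀
  have hprodpos : 1 ≤ ∏ τ ∈ S, (((M' % (∏ p ∈ F, p) : ℕ) : GaussianInt) * v + τ).norm.natAbs := by
    apply Nat.one_le_iff_ne_zero.mpr
    apply Finset.prod_ne_zero_iff.mpr
    intro τ hτ
    have := cell_norm_gt_one v τ hv (M' % (∏ p ∈ F, p)) (hT τ (hST hτ))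
    omega
  have hprodle : ∏ τ ∈ S, (((M' % (∏ p ∈ F, p) : ℕ) : GaussianInt) * v + τ).norm.natAbs
      ≤ B ^ S.card := by
    apply Finset.prod_le_pow_card
    intro τ hτ
    have h1 := hB τ (hST hτ) (M' % (∏ p ∈ F, p)) hM₁lt
    have h2 := GaussianInt.norm_nonneg (((M' % (∏ p ∈ F, p) : ℕ) : GaussianInt) * v + τ)
    omega
  obtain ⟨t, ht⟩ : ∃ t : ℕ, t = t₀ *
      ∏ τ ∈ S, (((M' % (∏ p ∈ F, p) : ℕ) : GaussianInt) * v + τ).norm.natAbs := ⟨_, rfl⟩
  obtain ⟨M₁, hM₁⟩ : ∃ M₁ : ℕ, M₁ = M' % (∏ p ∈ F, p) := ⟨_, rfl⟩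
  obtain ⟨P₀, hP₀def⟩ : ∃ P₀ : ℕ, P₀ = ∏ p ∈ F, p := ⟨_, rfl⟩
  rw [← hM₁] at ht hprodpos hprodle
  rw [← hP₀def] at hM₁ hP₀ hM₁lt ⊢
  rw [← hM₁] at hM₁lt
  have ht1 : 1 ≤ t := by
    rw [ht]
    exact Nat.one_le_iff_ne_zero.mpr (Nat.mul_ne_zero (by omega) (by omega))
  have htle : t ≤ t₀ * B ^ S.card := by
    rw [ht]
    exact Nat.mul_le_mul_left _ hprodle
  have htge : t₀ ≤ t := by
    rw [ht]
    exact Nat.le_mul_of_pos_right _ (by omega)
  have hPt : t ≤ P₀ * t := Nat.le_mul_of_pos_left _ (by omega)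
  have hPt2 : P₀ ≤ P₀ * t := Nat.le_mul_of_pos_right _ (by omega)
  refine ⟨M₁ + P₀ * t, S.card, by omega, ?_, hScard, ?_⟩
  · have h1 : P₀ * t ≤ P₀ * (t₀ * B ^ S.card) := Nat.mul_le_mul_left _ htle
    have h2 : 2 * P₀ * t₀ * B ^ S.card = 2 * (P₀ * (t₀ * B ^ S.card)) := by ring
    rw [h2]
    omega
  · intro τ hτ
    have hXpos : 0 < X v τ := by
      have := hT τ hτ
      linarith
    by_cases hτS : τ ∈ S
    · have hu1 : 1 < ((M₁ : GaussianInt) * v + τ).norm := cell_norm_gt_one v τ hv M₁ (hT τ hτ)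
      have hult : ((M₁ : GaussianInt) * v + τ).norm
          < (((M₁ + P₀ * t : ℕ) : GaussianInt) * v + τ).norm :=
        cell_norm_lt v τ hv M₁ (M₁ + P₀ * t) (by omega) hXpos
      have hudvd : ((M₁ : GaussianInt) * v + τ) ∣ ((M₁ + P₀ * t : ℕ) : GaussianInt) * v + τ := by
        have h1 : ((M₁ : GaussianInt) * v + τ) ∣ (t : GaussianInt) := by
          have h2 : ((M₁ : GaussianInt) * v + τ).norm.natAbs ∣ t := by
            rw [ht]
            exact Dvd.dvd.mul_left (Finset.dvd_prod_of_mem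
              (fun τ => ((M₁ : GaussianInt) * v + τ).norm.natAbs) hτS) t₀
          have h3 : ((M₁ : GaussianInt) * v + τ)
              ∣ ((((M₁ : GaussianInt) * v + τ).norm.natAbs : ℕ) : GaussianInt) := by
            have h4 : ((((M₁ : GaussianInt) * v + τ).norm.natAbs : ℕ) : GaussianInt)
                = ((M₁ : GaussianInt) * v + τ) * star ((M₁ : GaussianInt) * v + τ) := by
              rw [← Zsqrtd.norm_eq_mul_conj, ← Int.cast_natCast,
                Int.natAbs_of_nonneg (GaussianInt.norm_nonneg _)]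
            exact ⟨_, h4⟩
          obtain ⟨k, hk⟩ := h2
          exact h3.trans ⟨(k : GaussianInt), by rw [hk]; push_cast; ring⟩
        have h5 : ((M₁ + P₀ * t : ℕ) : GaussianInt) * v + τ
            = ((M₁ : GaussianInt) * v + τ) + (t : GaussianInt) * ((P₀ : GaussianInt) * v) := by
          push_cast
          ring
        rw [h5]
        exact dvd_add dvd_rfl (h1.mul_right _)
      exact not_prime_of_dvd _ _ hudvd hu1 hult
    · obtain ⟨p, hpF, hp⟩ := hSkill τ hτ hτS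
      have hpdvd : p ∣ P₀ := by
        rw [hP₀def]
        exact Finset.dvd_prod_of_mem (fun q => q) hpF
      have hNp : (M₁ + P₀ * t) % p = kill p τ % p := by
        rw [← hp]
        obtain ⟨k, hk⟩ := hpdvd
        rw [hM₁, hk, mul_assoc, Nat.add_mul_mod_self_left, Nat.mod_mul_right_mod]
      have hdiv := hkill p hpF τ (M₁ + P₀ * t) hNp
      have hple : p ≤ M₁ + P₀ * t := by
        have := Nat.le_of_dvd (by omega) hpdvd
        omega
      have hsq := cell_norm_gt_sq v τ hv (M₁ + P₀ * t) hXpos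
      refine not_prime_of_dvd_norm _ p (hFprime p hpF) hdiv ?_
      have h7 : (p : ℤ) ≤ ((M₁ + P₀ * t : ℕ) : ℤ) := by exact_mod_cast hple
      have h8 : (0 : ℤ) ≤ p := Nat.cast_nonneg p
      nlinarith

theorem exists_nat_ge (x y z : ℝ) :
    ∃ h : ℕ, 1 ≤ h ∧ x ≤ (h : ℝ) ∧ y ≤ (h : ℝ) ∧ z < (h : ℝ) := by
  refine ⟨⌈x⌉₊ + ⌈y⌉₊ + ⌈z⌉₊ + 1, by omega, ?_, ?_, ?_⟩
  all_goals
    push_cast
    have h1 := Nat.le_ceil x
    have h2 := Nat.le_ceil y
    have h3 := Nat.le_ceil z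
    have h4 : (0 : ℝ) ≤ ⌈x⌉₊ := Nat.cast_nonneg _
    have h5 : (0 : ℝ) ≤ ⌈y⌉₊ := Nat.cast_nonneg _
    have h6 : (0 : ℝ) ≤ ⌈z⌉₊ := Nat.cast_nonneg _
    linarith

theorem toComplex_ne_zero (w : GaussianInt) (hw : w ≠ 0) : (w : ℂ) ≠ 0 := by
  intro h
  exact hw (GaussianInt.toComplex_eq_zero.mp h)

theorem abs_Y_le (a v w : GaussianInt) (Ya : ℕ) (hYa : (Ya : ℤ) = |Y v a|) (B : ℝ)
    (h : |(Y v w : ℝ) - (Y v a : ℝ)| ≤ B) : |(Y v w : ℝ)| ≤ Ya + B := by
  have h1 : |(Y v w : ℝ)| ≤ |(Y v a : ℝ)| + |(Y v w : ℝ) - (Y v a : ℝ)| := by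
    have := abs_add_le (Y v a : ℝ) ((Y v w : ℝ) - (Y v a : ℝ))
    simpa using this
  have h2 : |(Y v a : ℝ)| = Ya := by
    have : ((Ya : ℤ) : ℝ) = ((|Y v a| : ℤ) : ℝ) := by rw [hYa]
    push_cast at this
    linarith
  linarith

/-- At the barrier the region is too narrow: a point of the region in the barrier columns
cannot be at distance `h` (in the scaled transversal coordinate) from the line. -/
theorem region_small (a v w : GaussianInt) (hv : v ≠ 0) (hw : w ≠ 0) (c C : ℝ) (hc : 1 ≤ c)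
    (V K N P₀ t₀ s h γ β₁ Ya : ℕ) (hV : (V : ℤ) = v.norm) (hYa : (Ya : ℤ) = |Y v a|)
    (hK : 1 ≤ K) (hP₀ : 1 ≤ P₀) (ht₀ : 1 ≤ t₀) (hγ : γ = 4 * V + K + Ya) (hβ₁ : 1 ≤ β₁)
    (hh : 1 ≤ h) (hN1 : 1 ≤ N) (hN2 : N ≤ 2 * P₀ * t₀ * ((β₁ * h) ^ 2) ^ s)
    (hs : (s : ℝ) ≤ ((K * (2 * h) : ℕ) : ℝ) * (1 / (16 * c * K * V)))
    (hh2 : 2 * c * V ≤ (h : ℝ)) (hh3 : 4 * (V : ℝ) ^ 2 * β₁ ≤ h)
    (hh4 : 4 * V * (C + c * (Real.log ((2 * P₀ * t₀ : ℕ) : ℝ) + Real.log (γ : ℝ))) < h)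
    (hw1 : 0 < X v w) (hw2 : X v w ≤ N * V + 2 * V + K) (t : ℝ)
    (hreg : ‖(w : ℂ) - ((a : ℂ) + t * (v : ℂ))‖ *
      Real.log (2 + ‖(w : ℂ) - ((a : ℂ) + t * (v : ℂ))‖) ≤ C + c * Real.log ‖(w : ℂ)‖)
    (hY : (h : ℝ) ≤ |(Y v w : ℝ) - (Y v a : ℝ)|) : False := by
  obtain ⟨d, hd⟩ : ∃ d : ℝ, d = ‖(w : ℂ) - ((a : ℂ) + t * (v : ℂ))‖ := ⟨_, rfl⟩
  rw [← hd] at hreg
  have hd0 : 0 ≤ d := by rw [hd]; exact _root_.norm_nonneg _
  obtain ⟨hv1, hv2⟩ := norm_v_le v hv
  have hVr : (V : ℝ) = (v.norm : ℝ) := by exact_mod_cast hV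
  have hV1 : (1 : ℝ) ≤ V := by rw [hVr]; linarith
  have hcpos : 0 < c := by linarith
  have hKr : (1 : ℝ) ≤ K := by exact_mod_cast hK
  have hhr : (1 : ℝ) ≤ h := by exact_mod_cast hh
  have hNr1 : (1 : ℝ) ≤ N := by exact_mod_cast hN1
  have hβr : (1 : ℝ) ≤ β₁ := by exact_mod_cast hβ₁
  have hYa0 : (0 : ℝ) ≤ Ya := Nat.cast_nonneg _
  have hdist := dist_Y a v w t
  rw [← hd] at hdist
  have hdist' : |(Y v w : ℝ) - (Y v a : ℝ)| ≤ V * d :=
    hdist.trans (mul_le_mul_of_nonneg_right (hVr ▸ hv2) hd0)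
  have hVd : (h : ℝ) ≤ V * d := hY.trans hdist'
  have hd1 : (h : ℝ) / V ≤ d := by
    rw [div_le_iff₀ (by linarith)]
    linarith [mul_comm d (V : ℝ)]
  have hcd : c ≤ (h : ℝ) / V := by
    rw [le_div_iff₀ (by linarith)]
    nlinarith
  have hnw0 : 0 < ‖(w : ℂ)‖ := norm_pos_iff.mpr (toComplex_ne_zero w hw)
  have hnw := norm_le_X_add_Y v w hv
  have hXabs : |(X v w : ℝ)| ≤ N * V + 2 * V + K := by
    rw [abs_of_pos (by exact_mod_cast hw1)]
    exact_mod_cast hw2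
  have hYabs : |(Y v w : ℝ)| ≤ Ya + V * d := abs_Y_le a v w Ya hYa _ hdist'
  obtain ⟨A, hA⟩ : ∃ A : ℝ, A = N * V + 3 * V + K + Ya := ⟨_, rfl⟩
  have hNV : (0 : ℝ) ≤ (N : ℝ) * V := by positivity
  have hA1 : 1 ≤ A := by rw [hA]; linarith
  have hAV : (V : ℝ) ≤ A := by rw [hA]; linarith
  have hnwA : ‖(w : ℂ)‖ ≤ A * (1 + d) := by
    have h1 : A * (1 + d) = A + A * d := by ring
    have h2 : V * d ≤ A * d := mul_le_mul_of_nonneg_right hAV hd0
    rw [h1]
    have h3 : (N : ℝ) * V + 2 * V + K + Ya ≤ A := by rw [hA]; linarith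
    linarith
  have key := real_key d ((h : ℝ) / V) c C A ‖(w : ℂ)‖ (by linarith) hcd hd1 hA1 hnw0 hnwA hreg
  have hγr : (γ : ℝ) = 4 * V + K + Ya := by rw [hγ]; push_cast; ring
  have hγ1 : (1 : ℝ) ≤ γ := by rw [hγr]; linarith
  have hAle : A ≤ (N : ℝ) * γ := by
    rw [hA, hγr]
    have h1 : (0 : ℝ) ≤ (N - 1) * (3 * V + K + Ya) := by
      apply mul_nonneg (by linarith) (by linarith)
    nlinarith
  have hlogA : Real.log A ≤ Real.log N + Real.log γ := by
    rw [← Real.log_mul (by linarith) (by linarith)]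
    exact Real.log_le_log (by linarith) hAle
  have hNr : (N : ℝ) ≤ ((2 * P₀ * t₀ : ℕ) : ℝ) * (((β₁ : ℝ) * h) ^ 2) ^ s := by
    exact_mod_cast hN2
  have hP2 : (1 : ℝ) ≤ ((2 * P₀ * t₀ : ℕ) : ℝ) := by
    have : 1 * 1 * 1 ≤ 2 * P₀ * t₀ :=
      Nat.mul_le_mul (Nat.mul_le_mul (by norm_num) hP₀) ht₀
    exact_mod_cast this
  have hlogN : Real.log N
      ≤ Real.log ((2 * P₀ * t₀ : ℕ) : ℝ) + s * (2 * (Real.log β₁ + Real.log h)) := by
    have h1 := Real.log_le_log (by linarith : (0 : ℝ) < N) hNr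
    rw [Real.log_mul (by linarith) (by positivity), Real.log_pow, Real.log_pow,
      Real.log_mul (by linarith) (by linarith)] at h1
    simp only [Nat.cast_ofNat] at h1
    linarith
  have hlogs : 0 ≤ Real.log β₁ + Real.log h :=
    add_nonneg (Real.log_nonneg hβr) (Real.log_nonneg hhr)
  have hs1 : (s : ℝ) ≤ (h : ℝ) / (8 * c * V) := by
    refine hs.trans (le_of_eq ?_)
    push_cast
    field_simp
    ring
  have hs2 : c * ((s : ℝ) * (2 * (Real.log β₁ + Real.log h)))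
      ≤ (h : ℝ) / (4 * V) * (Real.log β₁ + Real.log h) := by
    have h1 : c * (s : ℝ) ≤ c * ((h : ℝ) / (8 * c * V)) := mul_le_mul_of_nonneg_left hs1 hcpos.le
    have h2 : c * ((h : ℝ) / (8 * c * V)) = (h : ℝ) / (8 * V) := by
      field_simp
    have h3 : c * ((s : ℝ) * (2 * (Real.log β₁ + Real.log h)))
        = (c * (s : ℝ)) * (2 * (Real.log β₁ + Real.log h)) := by ring
    have h4 : (h : ℝ) / (4 * V) * (Real.log β₁ + Real.log h)
        = (h : ℝ) / (8 * V) * (2 * (Real.log β₁ + Real.log h)) := by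
      field_simp
      ring
    rw [h3, h4]
    apply mul_le_mul_of_nonneg_right _ (by linarith)
    linarith
  have hfin := final_ineq (V : ℝ) c
    (C + c * (Real.log ((2 * P₀ * t₀ : ℕ) : ℝ) + Real.log (γ : ℝ))) β₁ h hV1 hβr hh2 hh3 hh4
  have hcA : c * Real.log A ≤ c * (Real.log N + Real.log γ) :=
    mul_le_mul_of_nonneg_left hlogA hcpos.le
  have hcN : c * Real.log N ≤ c * (Real.log ((2 * P₀ * t₀ : ℕ) : ℝ)
      + s * (2 * (Real.log β₁ + Real.log h))) := mul_le_mul_of_nonneg_left hlogN hcpos.le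
  have hexp1 : c * (Real.log N + Real.log γ) = c * Real.log N + c * Real.log γ := by ring
  have hexp2 : c * (Real.log ((2 * P₀ * t₀ : ℕ) : ℝ) + s * (2 * (Real.log β₁ + Real.log h)))
      = c * Real.log ((2 * P₀ * t₀ : ℕ) : ℝ) + c * ((s : ℝ) * (2 * (Real.log β₁ + Real.log h))) := by
    ring
  have hexp3 : C + c * (Real.log ((2 * P₀ * t₀ : ℕ) : ℝ) + Real.log (γ : ℝ))
      = C + c * Real.log ((2 * P₀ * t₀ : ℕ) : ℝ) + c * Real.log (γ : ℝ) := by ring
  linarith

theorem sq_add_sq_le (x y b : ℤ) (hx : 0 ≤ x) (hy : 0 ≤ y) (h : x + y ≤ b) :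
    x ^ 2 + y ^ 2 ≤ b ^ 2 := by
  have h1 : (x + y) ^ 2 ≤ b ^ 2 := pow_le_pow_left₀ (add_nonneg hx hy) h 2
  have h2 : 0 ≤ x * y := mul_nonneg hx hy
  nlinarith

theorem add_le_succ_mul (Q h : ℤ) (hQ : 0 ≤ Q) (hh : 1 ≤ h) : Q + (h - 1) ≤ (Q + 1) * h := by
  nlinarith

theorem cell_norm_bound (v τ : GaussianInt) (hv : 1 ≤ v.norm) (M P₀ V K Ya h β₁ : ℕ)
    (hV : (V : ℤ) = v.norm) (hM : M ≤ P₀) (hh1 : 1 ≤ h)
    (hβ₁ : β₁ = P₀ * V + 2 * V + K + Ya + 1) (hX1 : 0 < X v τ) (hX2 : X v τ ≤ 2 * V + K)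
    (hY : |Y v τ| ≤ Ya + ((h : ℤ) - 1)) :
    ((M : GaussianInt) * v + τ).norm ≤ (((β₁ * h) ^ 2 : ℕ) : ℤ) := by
  have h1 := cell_norm_le v τ hv M
  rw [← hV] at h1
  have hM0 : (0 : ℤ) ≤ M := Nat.cast_nonneg M
  have hMP : (M : ℤ) ≤ P₀ := by exact_mod_cast hM
  have hV0 : (0 : ℤ) ≤ V := Nat.cast_nonneg V
  have hMV : 0 ≤ (M : ℤ) * V := mul_nonneg hM0 hV0
  have hMPV : (M : ℤ) * V ≤ P₀ * V := mul_le_mul_of_nonneg_right hMP hV0
  have hQ : (0 : ℤ) ≤ (P₀ : ℤ) * V + 2 * V + K + Ya := by positivity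
  have hβh := add_le_succ_mul ((P₀ : ℤ) * V + 2 * V + K + Ya) h hQ (by exact_mod_cast hh1)
  have hy2 : (Y v τ) ^ 2 = |Y v τ| ^ 2 := (sq_abs _).symm
  have hsum : (M * V + X v τ) ^ 2 + |Y v τ| ^ 2
      ≤ (((P₀ : ℤ) * V + 2 * V + K + Ya + 1) * h) ^ 2 :=
    sq_add_sq_le _ _ _ (by linarith) (abs_nonneg _) (by linarith)
  rw [hβ₁]
  push_cast
  rw [hy2] at h1
  linarith

/-- Barriers: beyond any prescribed position there are `K` consecutive columns (in the
coordinate along `v`) containing no Gaussian prime of the region. -/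
theorem barrier (a v : GaussianInt) (hv : v ≠ 0) (c C : ℝ) (hc : 1 ≤ c) (K : ℕ) (hK : 1 ≤ K)
    (R₀ : ℤ) :
    ∃ R : ℤ, R₀ ≤ R ∧ ∀ w : GaussianInt, Prime w → R < X v w → X v w ≤ R + K →
      ∀ t : ℝ, ¬ (‖(w : ℂ) - ((a : ℂ) + t * (v : ℂ))‖ *
        Real.log (2 + ‖(w : ℂ) - ((a : ℂ) + t * (v : ℂ))‖) ≤ C + c * Real.log ‖(w : ℂ)‖) := by
  have hvn : 1 ≤ v.norm := GaussianInt.norm_pos.mpr hv
  obtain ⟨V, hV⟩ : ∃ V : ℕ, (V : ℤ) = v.norm := ⟨v.norm.natAbs, Int.natAbs_of_nonneg (by linarith)⟩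
  have hV1 : 1 ≤ V := by omega
  obtain ⟨Ya, hYa⟩ : ∃ Ya : ℕ, (Ya : ℤ) = |Y v a| := ⟨(Y v a).natAbs, by simp⟩
  have hcpos : 0 < c := by linarith
  have hKr : (1 : ℝ) ≤ K := by exact_mod_cast hK
  have hVr : (1 : ℝ) ≤ V := by exact_mod_cast hV1
  have hεpos : 0 < 1 / (16 * c * K * V) := by positivity
  obtain ⟨F, hF, hFprod⟩ := exists_prime_set V (1 / (16 * c * K * V)) hεpos
  have hF' : ∀ p ∈ F, p.Prime ∧ p % 4 = 1 ∧ ¬ (p : ℤ) ∣ v.norm := by
    intro p hp
    obtain ⟨h1, h2, h3⟩ := hF p hp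
    refine ⟨h1, h2, ?_⟩
    rw [← hV]
    intro hdvd
    have := Nat.le_of_dvd (by omega) (Int.natCast_dvd_natCast.mp hdvd)
    omega
  obtain ⟨P₀, hP₀⟩ : ∃ P₀ : ℕ, P₀ = ∏ p ∈ F, p := ⟨_, rfl⟩
  have hP₀pos : 1 ≤ P₀ := by
    rw [hP₀]
    exact Nat.one_le_iff_ne_zero.mpr (Finset.prod_ne_zero_iff.mpr fun p hp => (hF p hp).1.ne_zero)
  obtain ⟨t₀, ht₀⟩ : ∃ t₀ : ℕ, t₀ = R₀.toNat + 1 := ⟨_, rfl⟩
  obtain ⟨γ, hγ⟩ : ∃ γ : ℕ, γ = 4 * V + K + Ya := ⟨_, rfl⟩
  obtain ⟨β₁, hβ₁⟩ : ∃ β₁ : ℕ, β₁ = P₀ * V + 2 * V + K + Ya + 1 := ⟨_, rfl⟩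
  obtain ⟨h, hh1, hh2, hh3, hh4⟩ := exists_nat_ge (2 * c * V) (4 * (V : ℝ) ^ 2 * β₁)
    (4 * V * (C + c * (Real.log ((2 * P₀ * t₀ : ℕ) : ℝ) + Real.log (γ : ℝ))))
  have hinj : Function.Injective (fun τ : GaussianInt => (X v τ, Y v τ)) := by
    intro τ τ' hττ
    simp only [Prod.mk.injEq] at hττ
    exact XY_inj v hv τ τ' hττ.1 hττ.2
  obtain ⟨T, hT⟩ : ∃ T : Finset GaussianInt, T = Finset.preimage
      ((Finset.Ioc (2 * (V : ℤ)) (2 * V + K)) ×ˢ
        (Finset.Icc (Y v a - ((h - 1 : ℕ) : ℤ)) (Y v a + ((h - 1 : ℕ) : ℤ))))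
      (fun τ : GaussianInt => (X v τ, Y v τ)) hinj.injOn := ⟨_, rfl⟩
  have hTmem : ∀ τ, τ ∈ T ↔ (2 * (V : ℤ) < X v τ ∧ X v τ ≤ 2 * V + K) ∧
      (Y v a - ((h - 1 : ℕ) : ℤ) ≤ Y v τ ∧ Y v τ ≤ Y v a + ((h - 1 : ℕ) : ℤ)) := by
    intro τ
    rw [hT, Finset.mem_preimage, Finset.mem_product, Finset.mem_Ioc, Finset.mem_Icc]
  have hTcard : T.card ≤ K * (2 * h) := by
    have h1 : T.card ≤ ((Finset.Ioc (2 * (V : ℤ)) (2 * V + K)) ×ˢ
        (Finset.Icc (Y v a - ((h - 1 : ℕ) : ℤ)) (Y v a + ((h - 1 : ℕ) : ℤ)))).card := by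
      apply Finset.card_le_card_of_injOn (fun τ : GaussianInt => (X v τ, Y v τ))
      · intro τ hτ
        have hτ' : τ ∈ T := hτ
        rw [hT, Finset.mem_preimage] at hτ'
        exact hτ'
      · exact hinj.injOn
    rw [Finset.card_product, Int.card_Ioc, Int.card_Icc] at h1
    have h2 : (2 * (V : ℤ) + K - 2 * V).toNat = K := by omega
    have h3 : (Y v a + ((h - 1 : ℕ) : ℤ) + 1 - (Y v a - ((h - 1 : ℕ) : ℤ))).toNat
        = 2 * (h - 1) + 1 := by omega
    rw [h2, h3] at h1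
    calc T.card ≤ K * (2 * (h - 1) + 1) := h1
      _ ≤ K * (2 * h) := Nat.mul_le_mul_left _ (by omega)
  have hB : ∀ τ ∈ T, ∀ M : ℕ, M < ∏ p ∈ F, p →
      ((M : GaussianInt) * v + τ).norm ≤ (((β₁ * h) ^ 2 : ℕ) : ℤ) := by
    intro τ hτ M hM
    rw [← hP₀] at hM
    have hm := (hTmem τ).mp hτ
    have hhZ : ((h - 1 : ℕ) : ℤ) = (h : ℤ) - 1 := by omega
    have hY : |Y v τ| ≤ Ya + ((h : ℤ) - 1) := by
      rw [hYa, abs_le]
      constructor
      · have := neg_abs_le (Y v a)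
        linarith [hm.2.1]
      · have := le_abs_self (Y v a)
        linarith [hm.2.2]
    have hV0 : (0 : ℤ) ≤ V := Nat.cast_nonneg V
    exact cell_norm_bound v τ hvn M P₀ V K Ya h β₁ hV hM.le hh1 hβ₁ (by linarith [hm.1.1])
      hm.1.2 hY
  obtain ⟨N, s, hN1, hN2, hs, hNkill⟩ := sieve v hvn F hF' T
    (fun τ hτ => by
      have := ((hTmem τ).mp hτ).1.1
      rw [← hV]
      exact this) t₀ ((β₁ * h) ^ 2) (by omega) hB
  rw [← hP₀] at hN2
  have hs' : (s : ℝ) ≤ ((K * (2 * h) : ℕ) : ℝ) * (1 / (16 * c * K * V)) := by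
    have h1 : (T.card : ℝ) * ∏ p ∈ F, (1 - 1 / (p : ℝ))
        ≤ (T.card : ℝ) * (1 / (16 * c * K * V)) :=
      mul_le_mul_of_nonneg_left hFprod (Nat.cast_nonneg _)
    have h2 : (T.card : ℝ) ≤ ((K * (2 * h) : ℕ) : ℝ) := by exact_mod_cast hTcard
    have h3 : (T.card : ℝ) * (1 / (16 * c * K * V))
        ≤ ((K * (2 * h) : ℕ) : ℝ) * (1 / (16 * c * K * V)) :=
      mul_le_mul_of_nonneg_right h2 hεpos.le
    linarith
  have hN1' : 1 ≤ N := by omega
  refine ⟨(N : ℤ) * V + 2 * V, ?_, ?_⟩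
  · have h1 : R₀ ≤ (R₀.toNat : ℤ) := Int.self_le_toNat R₀
    have h2 : (t₀ : ℤ) ≤ N := by exact_mod_cast hN1
    have h3 : (N : ℤ) * 1 ≤ N * V :=
      mul_le_mul_of_nonneg_left (by exact_mod_cast hV1) (Nat.cast_nonneg N)
    rw [ht₀] at h2
    push_cast at h2
    have hV0 : (0 : ℤ) ≤ V := Nat.cast_nonneg V
    linarith
  · intro w hw hw1 hw2 tt hreg
    obtain ⟨τ, hτ⟩ : ∃ τ : GaussianInt, w = (N : GaussianInt) * v + τ :=
      ⟨w - (N : GaussianInt) * v, by ring⟩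
    have hXw : X v w = N * V + X v τ := by rw [hτ, X_cell, hV]
    have hYw : Y v w = Y v τ := by rw [hτ, Y_cell]
    have hV0 : (0 : ℤ) ≤ V := Nat.cast_nonneg V
    have hNV0 : (0 : ℤ) ≤ (N : ℤ) * V := mul_nonneg (Nat.cast_nonneg N) hV0
    have hstep1 : |Y v w - Y v a| ≤ ((h - 1 : ℕ) : ℤ) := by
      by_contra hcon
      rw [not_le] at hcon
      have hYge : (h : ℝ) ≤ |(Y v w : ℝ) - (Y v a : ℝ)| := by
        have : (h : ℤ) ≤ |Y v w - Y v a| := by omega
        exact_mod_cast this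
      exact region_small a v w hv hw.ne_zero c C hc V K N P₀ t₀ s h γ β₁ Ya hV hYa hK hP₀pos
        (by omega) hγ (by omega) hh1 hN1' hN2 hs' hh2 hh3 hh4 (by linarith) (by linarith)
        tt hreg hYge
    rw [abs_le] at hstep1
    have hτT : τ ∈ T := by
      rw [hTmem]
      refine ⟨⟨by linarith, by linarith⟩, by linarith, by linarith⟩
    have := hNkill τ hτT
    rw [← hτ] at this
    exact this hw

/-- Between two positions along the line the region is bounded. -/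
theorem region_bounded (a v : GaussianInt) (hv : v ≠ 0) (c C : ℝ) (hc : 1 ≤ c) (Rm : ℕ) :
    ∃ Hb : ℕ, ∀ w : GaussianInt, w ≠ 0 → |X v w| ≤ (Rm : ℤ) → ∀ t : ℝ,
      ‖(w : ℂ) - ((a : ℂ) + t * (v : ℂ))‖ *
        Real.log (2 + ‖(w : ℂ) - ((a : ℂ) + t * (v : ℂ))‖) ≤ C + c * Real.log ‖(w : ℂ)‖ →
      |Y v w - Y v a| ≤ (Hb : ℤ) := by
  have hvn : 1 ≤ v.norm := GaussianInt.norm_pos.mpr hv
  obtain ⟨V, hV⟩ : ∃ V : ℕ, (V : ℤ) = v.norm := ⟨v.norm.natAbs, Int.natAbs_of_nonneg (by linarith)⟩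
  obtain ⟨Ya, hYa⟩ : ∃ Ya : ℕ, (Ya : ℤ) = |Y v a| := ⟨(Y v a).natAbs, by simp⟩
  obtain ⟨hv1, hv2⟩ := norm_v_le v hv
  have hVr : (V : ℝ) = (v.norm : ℝ) := by exact_mod_cast hV
  have hV1 : (1 : ℝ) ≤ V := by rw [hVr]; linarith
  obtain ⟨A, hA⟩ : ∃ A : ℝ, A = Rm + Ya + V + 1 := ⟨_, rfl⟩
  have hRm0 : (0 : ℝ) ≤ Rm := Nat.cast_nonneg _
  have hYa0 : (0 : ℝ) ≤ Ya := Nat.cast_nonneg _
  have hA1 : 1 ≤ A := by rw [hA]; linarith
  have hlog2 : 0 < Real.log 2 := Real.log_pos (by norm_num)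
  obtain ⟨Q, hQ⟩ : ∃ Q : ℝ, Q = c + |C + c * Real.log A| / Real.log 2 + 1 := ⟨_, rfl⟩
  have hQc : c ≤ Q := by
    rw [hQ]
    have : 0 ≤ |C + c * Real.log A| / Real.log 2 := by positivity
    linarith
  refine ⟨⌈(V : ℝ) * Q⌉₊, ?_⟩
  intro w hw hX t hreg
  by_contra hcon
  rw [not_le] at hcon
  obtain ⟨d, hd⟩ : ∃ d : ℝ, d = ‖(w : ℂ) - ((a : ℂ) + t * (v : ℂ))‖ := ⟨_, rfl⟩
  rw [← hd] at hreg
  have hd0 : 0 ≤ d := by rw [hd]; exact _root_.norm_nonneg _
  have hdist := dist_Y a v w t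
  rw [← hd] at hdist
  have hdist' : |(Y v w : ℝ) - (Y v a : ℝ)| ≤ V * d :=
    hdist.trans (mul_le_mul_of_nonneg_right (hVr ▸ hv2) hd0)
  have hbig : (V : ℝ) * Q < |(Y v w : ℝ) - (Y v a : ℝ)| := by
    have h1 : (V : ℝ) * Q ≤ (⌈(V : ℝ) * Q⌉₊ : ℝ) := Nat.le_ceil _
    have h2 : ((⌈(V : ℝ) * Q⌉₊ : ℤ) : ℝ) < ((|Y v w - Y v a| : ℤ) : ℝ) := by exact_mod_cast hcon
    push_cast at h2
    linarith
  have hQd : Q ≤ d := by
    have h1 : (V : ℝ) * Q < V * d := lt_of_lt_of_le hbig hdist'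
    have h2 : Q < d := lt_of_mul_lt_mul_left h1 (by linarith)
    exact h2.le
  have hnw0 : 0 < ‖(w : ℂ)‖ := norm_pos_iff.mpr (toComplex_ne_zero w hw)
  have hnw := norm_le_X_add_Y v w hv
  have hXabs : |(X v w : ℝ)| ≤ Rm := by
    have : ((|X v w| : ℤ) : ℝ) ≤ ((Rm : ℤ) : ℝ) := by exact_mod_cast hX
    push_cast at this
    exact this
  have hYabs : |(Y v w : ℝ)| ≤ Ya + V * d := abs_Y_le a v w Ya hYa _ hdist'
  have hnwA : ‖(w : ℂ)‖ ≤ A * (1 + d) := by
    have h1 : A * (1 + d) = A + A * d := by ring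
    have hAV : (V : ℝ) ≤ A := by rw [hA]; linarith
    have h2 : V * d ≤ A * d := mul_le_mul_of_nonneg_right hAV hd0
    have h3 : (Rm : ℝ) + Ya ≤ A := by rw [hA]; linarith
    rw [h1]
    linarith
  have key := real_key d Q c C A ‖(w : ℂ)‖ (by linarith) hQc hQd hA1 hnw0 hnwA hreg
  have hlogQ : Real.log 2 ≤ Real.log (2 + Q) := Real.log_le_log (by norm_num) (by linarith)
  have hQc' : Q - c = |C + c * Real.log A| / Real.log 2 + 1 := by rw [hQ]; ring
  have h5 : (Q - c) * Real.log 2 ≤ (Q - c) * Real.log (2 + Q) :=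
    mul_le_mul_of_nonneg_left hlogQ (by linarith)
  have h6 : (Q - c) * Real.log 2 = |C + c * Real.log A| + Real.log 2 := by
    rw [hQc']
    field_simp
  have h7 := le_abs_self (C + c * Real.log A)
  linarith

theorem one_le_norm_of_ne_zero (w : GaussianInt) (hw : w ≠ 0) : 1 ≤ ‖(w : ℂ)‖ := by
  have h1 : 1 ≤ w.norm := GaussianInt.norm_pos.mpr hw
  have h2 : (1 : ℝ) ≤ (w.norm : ℝ) := by exact_mod_cast h1
  rw [← norm_sq_eq] at h2
  nlinarith [_root_.norm_nonneg (w : ℂ)]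

/-- **No bounded-step walk on Gaussian primes inside a widening strip around a line through
two Gaussian integers.**  Let `a ≠ b` be Gaussian integers and `c`, `C`, `D` real numbers.
There is no sequence of pairwise distinct Gaussian primes `z 0, z 1, …` with
`|z (n + 1) - z n| ≤ D` for all `n`, every term of which is at some distance `d` from a point of
the real line through `a` and `b` with `d log (2 + d) ≤ C + c log |z n|`. -/
theorem result (a b : GaussianInt) (hab : a ≠ b) (c C D : ℝ) (z : ℕ → GaussianInt)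
    (hinj : Function.Injective z) (hprime : ∀ n, Prime (z n))
    (hstep : ∀ n, ‖((z (n + 1) : GaussianInt) : ℂ) - ((z n : GaussianInt) : ℂ)‖ ≤ D)
    (hreg : ∀ n, ∃ t : ℝ,
      ‖((z n : GaussianInt) : ℂ) - ((a : ℂ) + t * ((b : ℂ) - (a : ℂ)))‖ *
        Real.log (2 + ‖((z n : GaussianInt) : ℂ) - ((a : ℂ) + t * ((b : ℂ) - (a : ℂ)))‖)
        ≤ C + c * Real.log ‖((z n : GaussianInt) : ℂ)‖) : False := by
  obtain ⟨v, hv⟩ : ∃ v : GaussianInt, v = b - a := ⟨_, rfl⟩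
  have hv0 : v ≠ 0 := by
    rw [hv]
    exact sub_ne_zero.mpr (Ne.symm hab)
  have hvc : ((v : GaussianInt) : ℂ) = (b : ℂ) - (a : ℂ) := by
    rw [hv, GaussianInt.toComplex_sub]
  have hnvc : (((-v : GaussianInt) : GaussianInt) : ℂ) = -((v : GaussianInt) : ℂ) := by
    rw [GaussianInt.toComplex_neg]
  have hz0 : ∀ n, z n ≠ 0 := fun n => (hprime n).ne_zero
  have hreg' : ∀ n, ∃ t : ℝ,
      ‖((z n : GaussianInt) : ℂ) - ((a : ℂ) + t * (v : ℂ))‖ *
        Real.log (2 + ‖((z n : GaussianInt) : ℂ) - ((a : ℂ) + t * (v : ℂ))‖)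
        ≤ C + max c 1 * Real.log ‖((z n : GaussianInt) : ℂ)‖ := by
    intro n
    obtain ⟨t, ht⟩ := hreg n
    refine ⟨t, ?_⟩
    rw [hvc]
    refine ht.trans ?_
    have h1 : 0 ≤ Real.log ‖((z n : GaussianInt) : ℂ)‖ :=
      Real.log_nonneg (one_le_norm_of_ne_zero _ (hz0 n))
    have h2 : c * Real.log ‖((z n : GaussianInt) : ℂ)‖
        ≤ max c 1 * Real.log ‖((z n : GaussianInt) : ℂ)‖ :=
      mul_le_mul_of_nonneg_right (le_max_left c 1) h1
    linarith
  have hD1 : 1 ≤ D := by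
    have h1 : z 1 - z 0 ≠ 0 := sub_ne_zero.mpr (hinj.ne (by norm_num))
    have h2 := one_le_norm_of_ne_zero _ h1
    rw [GaussianInt.toComplex_sub] at h2
    exact h2.trans (hstep 0)
  obtain ⟨hv1, hv2⟩ := norm_v_le v hv0
  obtain ⟨K, hK⟩ : ∃ K : ℕ, K = ⌈(v.norm : ℝ) * D⌉₊ := ⟨_, rfl⟩
  have hKge : (v.norm : ℝ) * D ≤ K := by rw [hK]; exact Nat.le_ceil _
  have hK1 : 1 ≤ K := by
    have h1 : (1 : ℝ) ≤ (v.norm : ℝ) * D := by nlinarith
    have h2 : (1 : ℝ) ≤ K := h1.trans hKge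
    exact_mod_cast h2
  have hstepX : ∀ n, |X v (z (n + 1)) - X v (z n)| ≤ (K : ℤ) := by
    intro n
    have h1 := step_X v (z n) (z (n + 1)) D (hstep n)
    have h2 : ‖(v : ℂ)‖ * D ≤ (v.norm : ℝ) * D :=
      mul_le_mul_of_nonneg_right hv2 (by linarith)
    have h3 : ((|X v (z (n + 1)) - X v (z n)| : ℤ) : ℝ) ≤ ((K : ℤ) : ℝ) := by
      push_cast
      linarith
    exact_mod_cast h3
  obtain ⟨R₁, hR₁, hbar₁⟩ := barrier a v hv0 (max c 1) C (le_max_right c 1) K hK1 (X v (z 0))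
  obtain ⟨R₂, hR₂, hbar₂⟩ := barrier a (-v) (neg_ne_zero.mpr hv0) (max c 1) C (le_max_right c 1)
    K hK1 (X (-v) (z 0))
  have hinv : ∀ n, X v (z n) ≤ R₁ ∧ X (-v) (z n) ≤ R₂ := by
    intro n
    induction n with
    | zero => exact ⟨hR₁, hR₂⟩
    | succ n ih =>
      have hs := hstepX n
      rw [abs_le] at hs
      constructor
      · by_contra hcon
        rw [not_le] at hcon
        obtain ⟨t, ht⟩ := hreg' (n + 1)
        exact hbar₁ (z (n + 1)) (hprime (n + 1)) hcon (by linarith [ih.1]) t ht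
      · by_contra hcon
        rw [not_le] at hcon
        obtain ⟨t, ht⟩ := hreg' (n + 1)
        have hX1 := X_neg v (z (n + 1))
        have hX2 := X_neg v (z n)
        refine hbar₂ (z (n + 1)) (hprime (n + 1)) hcon (by linarith [ih.2]) (-t) ?_
        rw [hnvc]
        have h1 : ((a : ℂ) + ((-t : ℝ) : ℂ) * -((v : GaussianInt) : ℂ))
            = (a : ℂ) + (t : ℂ) * (v : ℂ) := by
          push_cast
          ring
        rw [h1]
        exact ht
  obtain ⟨Rm, hRm⟩ : ∃ Rm : ℕ, Rm = (max R₁ R₂).toNat := ⟨_, rfl⟩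
  obtain ⟨Hb, hHb⟩ := region_bounded a v hv0 (max c 1) C (le_max_right c 1) Rm
  have hXY : Function.Injective (fun τ : GaussianInt => (X v τ, Y v τ)) := by
    intro τ τ' hττ
    simp only [Prod.mk.injEq] at hττ
    exact XY_inj v hv0 τ τ' hττ.1 hττ.2
  have hfin : (Set.range z).Finite := by
    apply Set.Finite.subset (Set.Finite.preimage hXY.injOn
      ((Set.finite_Icc (-(Rm : ℤ)) Rm).prod (Set.finite_Icc (Y v a - Hb) (Y v a + Hb))))
    rintro _ ⟨n, rfl⟩
    have h1 := hinv n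
    have hXn : |X v (z n)| ≤ (Rm : ℤ) := by
      have hX2 := X_neg v (z n)
      rw [abs_le, hRm]
      have h3 : max R₁ R₂ ≤ ((max R₁ R₂).toNat : ℤ) := Int.self_le_toNat _
      have h4 := le_max_left R₁ R₂
      have h5 := le_max_right R₁ R₂
      constructor <;> linarith [h1.1, h1.2]
    obtain ⟨t, ht⟩ := hreg' n
    have hYn := hHb (z n) (hz0 n) hXn t ht
    rw [abs_le] at hXn hYn
    simp only [Set.mem_preimage, Set.mem_prod, Set.mem_Icc]
    exact ⟨⟨hXn.1, hXn.2⟩, by linarith [hYn.1], by linarith [hYn.2]⟩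
  exact (Set.infinite_range_of_injective hinj) hfin

end Vale.Agent.Results.P015.RationalLogStrip
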