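import Mathlib

/-!
# P015 (Gaussian moat problem): no bounded-step walk inside a widening strip around any line

Let `L` be an arbitrary real line in the complex plane (any slope, rational or irrational, any
offset).  There is no infinite sequence of pairwise distinct Gaussian primes with bounded
steps all of whose terms `z` satisfy `3 dist(z, L) ^ 2 ≤ C + log |z|`.  The region is a
neighbourhood of `L` whose half-width grows like `sqrt (log |z| / 3)`; it does not depend on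
the step bound, and it contains every strip of bounded width around `L`.

Proof idea.  Let `M` be the product of the primes up to `R ^ 2` (so `M ≤ 4 ^ (R ^ 2)`).
Around every point `M t` of the lattice `M ℤ[i]`, every Gaussian integer `M t + w` with
`1 < N(w) ≤ R ^ 2` (and larger norm than `w`) is composite, because the least prime factor of
`N(w)` divides `M`.  By Dirichlet's approximation theorem the line through the origin parallel
to `L` passes within `1 / 4` of lattice points `± M t` with `|M t| ≤ 10 (M m) ^ 2`, where `m`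
is of the size of `R`.  At that distance the region has half-width less than `R`, so for `R`
large the two composite annuli cut the region and the walk is trapped between them.
-/

namespace Vale.Agent.Results.P015.WideStripAllLines

open GaussianInt

/-- If a rational prime `p` divides `c` (in the Gaussian integers) and the norm of `w`, and
`c + w` has larger norm than `w`, then `c + w` is not a Gaussian prime. -/
theorem not_prime_add (c w : GaussianInt) (p : ℕ) (hp : p.Prime)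
    (hpc : (p : GaussianInt) ∣ c) (hpn : (p : ℤ) ∣ w.norm) (hw : 0 < w.norm)
    (hlt : w.norm < (c + w).norm) : ¬ Prime (c + w) := by
  intro hprime
  have key : ∀ q : GaussianInt, ¬ IsUnit q → q ∣ c → q ∣ w → False := by
    intro q hq hqc hqw
    have hq2 : q ∣ c + w := dvd_add hqc hqw
    obtain ⟨u, hu⟩ := hq2
    have hirr := hprime.irreducible
    have hunit : IsUnit u := by
      rcases hirr.isUnit_or_isUnit hu with h | h
      · exact absurd h hq
      · exact h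
    have hdvd : (c + w) ∣ w := by
      obtain ⟨v, hv⟩ := hunit.exists_right_inv
      have : q = (c + w) * v := by
        rw [hu, mul_assoc, hv, mul_one]
      exact Dvd.dvd.trans ⟨v, this⟩ hqw
    obtain ⟨t, ht⟩ := hdvd
    have hn : w.norm = (c + w).norm * t.norm := by
      conv_lhs => rw [ht]
      exact Zsqrtd.norm_mul _ _
    have hcw0 : 0 ≤ (c + w).norm := GaussianInt.norm_nonneg _
    have ht0 : 0 ≤ t.norm := GaussianInt.norm_nonneg _
    rcases eq_or_lt_of_le ht0 with h0 | hpos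
    · rw [← h0, mul_zero] at hn
      omega
    · nlinarith
  have hpnu : ¬ IsUnit (p : GaussianInt) := by
    rw [Zsqrtd.isUnit_iff_norm_isUnit, Zsqrtd.norm_natCast, Int.isUnit_iff_natAbs_eq]
    have := hp.two_le
    intro h
    have h2 : ((p : ℤ) * p).natAbs = p * p := by
      rw [Int.natAbs_mul]; simp
    rw [h2] at h
    nlinarith
  have hp0 : (p : GaussianInt) ≠ 0 := by
    have := hp.pos
    intro h
    have h3 : ((p : GaussianInt)).norm = 0 := by rw [h]; simp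
    rw [Zsqrtd.norm_natCast] at h3
    have : (p : ℤ) = 0 := by nlinarith
    omega
  obtain ⟨π, hπirr, hπp⟩ := WfDvdMonoid.exists_irreducible_factor hpnu hp0
  have hπprime : Prime π := hπirr.prime
  have hpw : (p : GaussianInt) ∣ w * star w := by
    rw [← Zsqrtd.norm_eq_mul_conj]
    obtain ⟨k, hk⟩ := hpn
    exact ⟨(k : GaussianInt), by rw [hk]; push_cast; ring⟩
  rcases hπprime.dvd_or_dvd (hπp.trans hpw) with h | h
  · exact key π hπirr.not_isUnit (hπp.trans hpc) h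
  · have h1 : star π ∣ w := by
      obtain ⟨t, ht⟩ := h
      exact ⟨star t, by rw [← star_mul', ← ht, star_star]⟩
    have h2 : star π ∣ c := by
      obtain ⟨t, ht⟩ := hπp
      obtain ⟨r, hr⟩ := hpc
      refine ⟨star t * r, ?_⟩
      rw [hr, ← mul_assoc, ← star_mul']
      congr 1
      rw [← ht]
      ext <;> simp
    have h3 : ¬ IsUnit (star π) := by
      rw [Zsqrtd.isUnit_iff_norm_isUnit, Zsqrtd.norm_conj, ← Zsqrtd.isUnit_iff_norm_isUnit]
      exact hπirr.not_isUnit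
    exact key (star π) h3 h2 h1


/-- Around every multiple of the primorial of `B`, every Gaussian integer `B# * t + w` with
`1 < N(w) ≤ B` and `N(w) < N(B# * t + w)` is composite. -/
theorem composite_near_multiple (B : ℕ) (t w : GaussianInt) (h1 : 1 < w.norm)
    (h2 : w.norm ≤ B) (h3 : w.norm < ((primorial B : GaussianInt) * t + w).norm) :
    ¬ Prime ((primorial B : GaussianInt) * t + w) := by
  have hn : 2 ≤ w.norm.natAbs := by omega
  have hp : (Nat.minFac w.norm.natAbs).Prime := Nat.minFac_prime (by omega)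
  have hle : Nat.minFac w.norm.natAbs ≤ B := by
    have := Nat.minFac_le (n := w.norm.natAbs) (by omega)
    omega
  have hdvd : Nat.minFac w.norm.natAbs ∣ primorial B := hp.dvd_primorial_iff.mpr hle
  refine not_prime_add _ w _ hp ?_ ?_ (by omega) h3
  · obtain ⟨r, hr⟩ := hdvd
    exact ⟨(r : GaussianInt) * t, by rw [hr]; push_cast; ring⟩
  · exact Int.natCast_dvd.mpr (Nat.minFac_dvd _)

/-- Dirichlet: a nonzero lattice vector of size at most `n + 1` almost parallel to the unit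
vector `(e₁, e₂)`. -/
theorem exists_almost_parallel (e₁ e₂ : ℝ) (he : e₁ ^ 2 + e₂ ^ 2 = 1) (n : ℕ) (hnpos : 0 < n) :
    ∃ p₁ p₂ : ℤ, (p₁ ≠ 0 ∨ p₂ ≠ 0) ∧ |(p₂ : ℝ) * e₁ - p₁ * e₂| ≤ 1 / ((n : ℝ) + 1)
      ∧ |(p₁ : ℝ)| ≤ n + 1 ∧ |(p₂ : ℝ)| ≤ n + 1 := by
  have he1 : |e₁| ≤ 1 := by
    rw [abs_le]; constructor <;> nlinarith
  have he2 : |e₂| ≤ 1 := by
    rw [abs_le]; constructor <;> nlinarith
  have hn0 : (0 : ℝ) < (n : ℝ) + 1 := by positivity
  have hsmall : 1 / ((n : ℝ) + 1) ≤ 1 := by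
    rw [div_le_one hn0]; linarith [Nat.cast_nonneg (α := ℝ) n]
  -- generic bound: from |k ξ - j| ≤ 1/(n+1), |ξ| ≤ 1, 0 < k ≤ n get |j| ≤ n + 1
  have hj : ∀ (ξ : ℝ) (j k : ℤ), |ξ| ≤ 1 → 0 < k → k ≤ n → |(k : ℝ) * ξ - j| ≤ 1 / ((n : ℝ) + 1)
      → |(j : ℝ)| ≤ n + 1 ∧ |(k : ℝ)| ≤ n + 1 := by
    intro ξ j k hξ hk0 hkn hjk
    have hk0' : (0 : ℝ) < k := by exact_mod_cast hk0
    have hkn' : (k : ℝ) ≤ n := by exact_mod_cast hkn
    have h1 : |(k : ℝ) * ξ| ≤ n := by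
      rw [abs_mul, abs_of_pos hk0']
      calc (k : ℝ) * |ξ| ≤ k * 1 := mul_le_mul_of_nonneg_left hξ hk0'.le
        _ ≤ n := by linarith
    constructor
    · have h2 : (j : ℝ) = (k : ℝ) * ξ - ((k : ℝ) * ξ - j) := by ring
      rw [h2]
      calc |(k : ℝ) * ξ - ((k : ℝ) * ξ - j)| ≤ |(k : ℝ) * ξ| + |(k : ℝ) * ξ - j| := abs_sub _ _
        _ ≤ n + 1 := by linarith
    · rw [abs_of_pos hk0']; linarith
  rcases le_or_gt |e₂| |e₁| with hcase | hcase
  · have he10 : e₁ ≠ 0 := by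
      intro h0
      rw [h0, abs_zero] at hcase
      have : e₂ = 0 := abs_nonpos_iff.mp hcase
      rw [h0, this] at he
      norm_num at he
    have hξ : |e₂ / e₁| ≤ 1 := by
      rw [abs_div, div_le_one (abs_pos.mpr he10)]; exact hcase
    obtain ⟨j, k, hk0, hkn, hjk⟩ := Real.exists_int_int_abs_mul_sub_le (e₂ / e₁) hnpos
    obtain ⟨b1, b2⟩ := hj _ j k hξ hk0 hkn hjk
    refine ⟨k, j, Or.inl (by omega), ?_, b2, b1⟩
    have : (j : ℝ) * e₁ - k * e₂ = -e₁ * (k * (e₂ / e₁) - j) := by field_simp; ring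
    rw [this, abs_mul, abs_neg]
    calc |e₁| * |(k : ℝ) * (e₂ / e₁) - j| ≤ 1 * (1 / ((n : ℝ) + 1)) :=
          mul_le_mul he1 hjk (abs_nonneg _) (by norm_num)
      _ = 1 / ((n : ℝ) + 1) := one_mul _
  · have he20 : e₂ ≠ 0 := by
      intro h0
      rw [h0, abs_zero] at hcase
      exact absurd hcase (not_lt.mpr (abs_nonneg _))
    have hξ : |e₁ / e₂| ≤ 1 := by
      rw [abs_div, div_le_one (abs_pos.mpr he20)]; exact hcase.le
    obtain ⟨j, k, hk0, hkn, hjk⟩ := Real.exists_int_int_abs_mul_sub_le (e₁ / e₂) hnpos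
    obtain ⟨b1, b2⟩ := hj _ j k hξ hk0 hkn hjk
    refine ⟨j, k, Or.inr (by omega), ?_, b1, b2⟩
    have : (k : ℝ) * e₁ - j * e₂ = e₂ * (k * (e₁ / e₂) - j) := by field_simp
    rw [this, abs_mul]
    calc |e₂| * |(k : ℝ) * (e₁ / e₂) - j| ≤ 1 * (1 / ((n : ℝ) + 1)) :=
          mul_le_mul he2 hjk (abs_nonneg _) (by norm_num)
      _ = 1 / ((n : ℝ) + 1) := one_mul _

/-- coordinate along the direction `(e₁, e₂)` -/
noncomputable def along (e₁ e₂ : ℝ) (q : GaussianInt) : ℝ := q.re * e₁ + q.im * e₂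

/-- coordinate across the direction `(e₁, e₂)` -/
noncomputable def across (e₁ e₂ : ℝ) (q : GaussianInt) : ℝ := q.im * e₁ - q.re * e₂

theorem along_sub (e₁ e₂ : ℝ) (p q : GaussianInt) :
    along e₁ e₂ (p - q) = along e₁ e₂ p - along e₁ e₂ q := by
  simp [along]; ring

theorem across_sub (e₁ e₂ : ℝ) (p q : GaussianInt) :
    across e₁ e₂ (p - q) = across e₁ e₂ p - across e₁ e₂ q := by
  simp [across]; ring

theorem norm_eq (e₁ e₂ : ℝ) (he : e₁ ^ 2 + e₂ ^ 2 = 1) (q : GaussianInt) :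
    (q.norm : ℝ) = along e₁ e₂ q ^ 2 + across e₁ e₂ q ^ 2 := by
  have h1 : (q.norm : ℝ) = (q.re : ℝ) ^ 2 + (q.im : ℝ) ^ 2 := by
    rw [Zsqrtd.norm_def]; push_cast; ring
  rw [h1]
  unfold along across
  have : ((q.re : ℝ) * e₁ + q.im * e₂) ^ 2 + ((q.im : ℝ) * e₁ - q.re * e₂) ^ 2
      = ((q.re : ℝ) ^ 2 + (q.im : ℝ) ^ 2) * (e₁ ^ 2 + e₂ ^ 2) := by ring
  rw [this, he, mul_one]


theorem exists_forward (e₁ e₂ : ℝ) (he : e₁ ^ 2 + e₂ ^ 2 = 1) (n : ℕ) (hn : 3 ≤ n) :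
    ∃ T : GaussianInt, 1 / 2 ≤ along e₁ e₂ T ∧ |across e₁ e₂ T| ≤ 1 / ((n : ℝ) + 1)
      ∧ along e₁ e₂ T ≤ 2 * ((n : ℝ) + 1) := by
  obtain ⟨p₁, p₂, hne, hsmall, hb1, hb2⟩ := exists_almost_parallel e₁ e₂ he n (by omega)
  have hn' : (3 : ℝ) ≤ n := by exact_mod_cast hn
  have hε' : 1 / ((n : ℝ) + 1) ≤ 1 / 4 := by
    rw [div_le_div_iff₀ (by positivity) (by norm_num)]; linarith
  have he1 : |e₁| ≤ 1 := by
    rw [abs_le]; constructor <;> nlinarith
  have he2 : |e₂| ≤ 1 := by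
    rw [abs_le]; constructor <;> nlinarith
  have hnorm : (1 : ℝ) ≤ ((⟨p₁, p₂⟩ : GaussianInt).norm : ℝ) := by
    have : (0 : ℤ) < (⟨p₁, p₂⟩ : GaussianInt).norm := by
      rw [GaussianInt.norm_pos]
      intro h
      have h1 := congrArg Zsqrtd.re h
      have h2 := congrArg Zsqrtd.im h
      simp at h1 h2
      rcases hne with h | h
      · exact h h1
      · exact h h2
    exact_mod_cast this
  rw [norm_eq e₁ e₂ he] at hnorm
  have hacr : across e₁ e₂ (⟨p₁, p₂⟩ : GaussianInt) = (p₂ : ℝ) * e₁ - p₁ * e₂ := rfl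
  have hal0 : along e₁ e₂ (⟨p₁, p₂⟩ : GaussianInt) = (p₁ : ℝ) * e₁ + p₂ * e₂ := rfl
  have habs : |along e₁ e₂ (⟨p₁, p₂⟩ : GaussianInt)| ≤ 2 * ((n : ℝ) + 1) := by
    rw [hal0]
    calc |(p₁ : ℝ) * e₁ + p₂ * e₂| ≤ |(p₁ : ℝ) * e₁| + |(p₂ : ℝ) * e₂| := abs_add_le _ _
      _ = |(p₁ : ℝ)| * |e₁| + |(p₂ : ℝ)| * |e₂| := by rw [abs_mul, abs_mul]
      _ ≤ ((n : ℝ) + 1) * 1 + ((n : ℝ) + 1) * 1 := by
          apply add_le_add
          · exact mul_le_mul hb1 he1 (abs_nonneg _) (by positivity)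
          · exact mul_le_mul hb2 he2 (abs_nonneg _) (by positivity)
      _ = 2 * ((n : ℝ) + 1) := by ring
  have hacr2 : across e₁ e₂ (⟨p₁, p₂⟩ : GaussianInt) ^ 2 ≤ 1 / 16 := by
    rw [hacr]
    have h1 := abs_le.mp (hsmall.trans hε')
    nlinarith
  have hal : 1 / 4 ≤ along e₁ e₂ (⟨p₁, p₂⟩ : GaussianInt) ^ 2 := by linarith
  rcases le_or_gt 0 (along e₁ e₂ (⟨p₁, p₂⟩ : GaussianInt)) with hpos | hneg
  · refine ⟨⟨p₁, p₂⟩, ?_, by rw [hacr]; exact hsmall, (le_abs_self _).trans habs⟩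
    nlinarith
  · have h1 : along e₁ e₂ (-(⟨p₁, p₂⟩ : GaussianInt))
        = -along e₁ e₂ (⟨p₁, p₂⟩ : GaussianInt) := by
      simp [along]; ring
    have h2 : across e₁ e₂ (-(⟨p₁, p₂⟩ : GaussianInt))
        = -across e₁ e₂ (⟨p₁, p₂⟩ : GaussianInt) := by
      simp [across]; ring
    refine ⟨-⟨p₁, p₂⟩, ?_, ?_, ?_⟩
    · rw [h1]; nlinarith
    · rw [h2, abs_neg, hacr]; exact hsmall
    · rw [h1]; exact (neg_le_abs _).trans habs

/-- a general fact: for a unit vector `(e₁, e₂)`, `(a e₁ + b e₂)² ≤ a² + b²` etc. -/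
theorem proj_sq_le (e₁ e₂ : ℝ) (he : e₁ ^ 2 + e₂ ^ 2 = 1) (a b : ℝ) :
    (a * e₁ + b * e₂) ^ 2 ≤ a ^ 2 + b ^ 2 ∧ (b * e₁ - a * e₂) ^ 2 ≤ a ^ 2 + b ^ 2 := by
  have key : (a * e₁ + b * e₂) ^ 2 + (b * e₁ - a * e₂) ^ 2 = (a ^ 2 + b ^ 2) * (e₁ ^ 2 + e₂ ^ 2) := by
    ring
  rw [he, mul_one] at key
  constructor
  · nlinarith [sq_nonneg (b * e₁ - a * e₂)]
  · nlinarith [sq_nonneg (a * e₁ + b * e₂)]


/-- Pure arithmetic used to close the transverse bound. -/
theorem final_arith (c C D s R a m : ℝ) (hc : 0 ≤ c) (hC : 0 ≤ C) (hD : 0 ≤ D) (hs : 0 ≤ s)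
    (hR : 100 * (c + 2) + C + (2 + D) ^ 2 + 4 * s + 18 ≤ R)
    (hm : m ≤ 2 * (s + R + 1) + 1)
    (key : 3 * a ^ 2 ≤ C + 12 + D + 2.7726 * R ^ 2 + 2 * m + a + c) :
    a ≤ R - c - 1 := by
  by_contra hcon
  rw [not_le] at hcon
  have hsqD : 0 ≤ (2 + D) ^ 2 := sq_nonneg _
  have hDle : D ≤ (2 + D) ^ 2 := by nlinarith
  have hR1 : 100 * (c + 2) ≤ R := by linarith
  have hR2 : C + D + 4 * s + 17 ≤ R := by linarith
  have hR0 : 0 ≤ R := by linarith
  have hpos : 0 < a - (R - c - 1) := sub_pos.mpr hcon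
  have hpos2 : 0 < 3 * (a + (R - c - 1)) - 1 := by linarith
  have e1 : 3 * (R - c - 1) ^ 2 - (R - c - 1) < 3 * a ^ 2 - a := by
    nlinarith [mul_pos hpos hpos2]
  have e2 : R * (100 * (c + 2)) ≤ R * R := mul_le_mul_of_nonneg_left hR1 hR0
  have e3 : 0 ≤ c * R := mul_nonneg hc hR0
  have e4 : 0 ≤ (c + 1) ^ 2 := sq_nonneg _
  nlinarith

/-- Inside the columns up to the barrier, the region forces the transverse coordinate to be
at most `R - |c₀| - 1`. -/
theorem across_bound (e₁ e₂ : ℝ) (he : e₁ ^ 2 + e₂ ^ 2 = 1) (c₀ C D : ℝ) (hD : 0 ≤ D) (R : ℕ)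
    (s₀ : ℝ) (hs₀ : 0 ≤ s₀)
    (hR : 100 * (|c₀| + 2) + |C| + (2 + D) ^ 2 + 4 * s₀ + 18 ≤ R)
    (M m : ℕ) (hM1 : 1 ≤ M) (hM4 : M ≤ 4 ^ (R ^ 2)) (hm1 : 1 ≤ m)
    (hm2 : (m : ℝ) ≤ 2 * (s₀ + R + 1) + 1)
    (X : ℝ) (hX1 : 1 ≤ X) (hX : X ≤ (12 + D) * ((M : ℝ) * m) ^ 2)
    (q : GaussianInt) (hq0 : q ≠ 0) (hal : |along e₁ e₂ q| ≤ X)
    (hreg : 3 * (across e₁ e₂ q - c₀) ^ 2 ≤ C + (1 / 2) * Real.log (q.norm : ℝ)) :
    |across e₁ e₂ q - c₀| ≤ R - |c₀| - 1 := by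
  set a := |across e₁ e₂ q - c₀| with ha
  have ha0 : 0 ≤ a := abs_nonneg _
  have hc0 : 0 ≤ |c₀| := abs_nonneg _
  have hC0 : 0 ≤ |C| := abs_nonneg _
  have hCle : C ≤ |C| := le_abs_self C
  have hsq : (across e₁ e₂ q - c₀) ^ 2 = a ^ 2 := by rw [ha, sq_abs]
  have hacr : |across e₁ e₂ q| ≤ a + |c₀| := by
    have : across e₁ e₂ q = (across e₁ e₂ q - c₀) + c₀ := by ring
    rw [this]
    exact abs_add_le _ _
  have hM1' : (1 : ℝ) ≤ M := by exact_mod_cast hM1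
  have hm1' : (1 : ℝ) ≤ m := by exact_mod_cast hm1
  have hR0 : (0 : ℝ) ≤ R := Nat.cast_nonneg R
  -- norm bound
  have hnorm : (q.norm : ℝ) ≤ (X + a + |c₀|) ^ 2 := by
    rw [norm_eq e₁ e₂ he]
    have h1 : along e₁ e₂ q ^ 2 ≤ X ^ 2 := by
      rw [← sq_abs (along e₁ e₂ q)]; nlinarith [abs_nonneg (along e₁ e₂ q)]
    have h2 : across e₁ e₂ q ^ 2 ≤ (a + |c₀|) ^ 2 := by
      rw [← sq_abs (across e₁ e₂ q)]; nlinarith [abs_nonneg (across e₁ e₂ q)]
    nlinarith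
  have hnpos : (0 : ℝ) < (q.norm : ℝ) := by
    have : 0 < q.norm := GaussianInt.norm_pos.mpr hq0
    exact_mod_cast this
  have hXY : 0 < X + a + |c₀| := by linarith
  have hlog1 : Real.log (q.norm : ℝ) ≤ 2 * Real.log (X + a + |c₀|) := by
    have := Real.log_le_log hnpos hnorm
    rw [Real.log_pow] at this
    push_cast at this
    exact this
  have hlog2 : Real.log (X + a + |c₀|) ≤ Real.log X + (a + |c₀|) := by
    have h1 : X + a + |c₀| ≤ X * Real.exp (a + |c₀|) := by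
      have h2 := Real.add_one_le_exp (a + |c₀|)
      nlinarith
    have h3 := Real.log_le_log hXY h1
    rw [Real.log_mul (by linarith) (Real.exp_pos _).ne', Real.log_exp] at h3
    exact h3
  have hlogM : Real.log (M : ℝ) ≤ (R : ℝ) ^ 2 * 1.3863 := by
    have h1 : (M : ℝ) ≤ (4 : ℝ) ^ (R ^ 2) := by exact_mod_cast hM4
    have h2 := Real.log_le_log (by linarith) h1
    rw [Real.log_pow] at h2
    have h4 : Real.log 4 ≤ 1.3863 := by
      have : (4 : ℝ) = 2 ^ 2 := by norm_num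
      rw [this, Real.log_pow]
      have := Real.log_two_lt_d9
      push_cast
      linarith
    push_cast at h2
    nlinarith [sq_nonneg (R : ℝ)]
  have hlogm : Real.log (m : ℝ) ≤ m := by
    have := Real.log_le_sub_one_of_pos (by linarith : (0 : ℝ) < m)
    linarith
  have hlogD : Real.log (12 + D) ≤ 12 + D := by
    have := Real.log_le_sub_one_of_pos (by linarith : (0 : ℝ) < 12 + D)
    linarith
  have hlogX : Real.log X ≤ (12 + D) + 2 * ((R : ℝ) ^ 2 * 1.3863) + 2 * m := by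
    have h1 := Real.log_le_log (by linarith) hX
    have hMm : (0 : ℝ) < (M : ℝ) * m := by positivity
    rw [Real.log_mul (by linarith) (by positivity), Real.log_pow,
      Real.log_mul (by linarith) (by linarith)] at h1
    push_cast at h1
    linarith
  have key : 3 * a ^ 2 ≤ |C| + 12 + D + 2.7726 * (R : ℝ) ^ 2 + 2 * m + a + |c₀| := by
    rw [hsq] at hreg
    linarith
  exact final_arith |c₀| |C| D s₀ R a m hc0 hC0 hD hs₀ hR hm2 key

theorem barrier (e₁ e₂ : ℝ) (he : e₁ ^ 2 + e₂ ^ 2 = 1) (c₀ D : ℝ) (hD : 0 ≤ D)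
    (R : ℕ) (hR : (2 + D) ^ 2 + 1 ≤ R) (T q : GaussianInt) (hq : Prime q)
    (ha : |across e₁ e₂ q - c₀| ≤ R - |c₀| - 1)
    (hF : |across e₁ e₂ ((primorial (R ^ 2) : GaussianInt) * T)| ≤ 1 / 4)
    (hS1 : 2 ≤ |along e₁ e₂ q - along e₁ e₂ ((primorial (R ^ 2) : GaussianInt) * T)|)
    (hS2 : |along e₁ e₂ q - along e₁ e₂ ((primorial (R ^ 2) : GaussianInt) * T)| ≤ 2 + D)
    (hbig : (R : ℝ) < |along e₁ e₂ q|) : False := by
  set P := (primorial (R ^ 2) : GaussianInt) * T with hP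
  set w := q - P with hw
  have hqw : P + w = q := by rw [hw]; ring
  have hnw : (w.norm : ℝ) = (along e₁ e₂ q - along e₁ e₂ P) ^ 2
      + (across e₁ e₂ q - across e₁ e₂ P) ^ 2 := by
    rw [norm_eq e₁ e₂ he, hw, along_sub, across_sub]
  have hnq : (q.norm : ℝ) = along e₁ e₂ q ^ 2 + across e₁ e₂ q ^ 2 := norm_eq e₁ e₂ he q
  have hR0 : (0 : ℝ) ≤ R := Nat.cast_nonneg R
  have hR1 : (1 : ℝ) ≤ R := by nlinarith [sq_nonneg (2 + D)]
  have hA : |across e₁ e₂ q - across e₁ e₂ P| ≤ R - 3 / 4 := by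
    have h1 : across e₁ e₂ q - across e₁ e₂ P
        = (across e₁ e₂ q - c₀) + c₀ - across e₁ e₂ P := by ring
    rw [h1]
    calc |(across e₁ e₂ q - c₀) + c₀ - across e₁ e₂ P|
        ≤ |(across e₁ e₂ q - c₀) + c₀| + |across e₁ e₂ P| := abs_sub _ _
      _ ≤ |across e₁ e₂ q - c₀| + |c₀| + |across e₁ e₂ P| := by
          linarith [abs_add_le (across e₁ e₂ q - c₀) c₀]
      _ ≤ R - 3 / 4 := by linarith
  have hw_lo : (4 : ℝ) ≤ (w.norm : ℝ) := by
    rw [hnw]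
    have : (2 : ℝ) ^ 2 ≤ (along e₁ e₂ q - along e₁ e₂ P) ^ 2 := by
      rw [← sq_abs (along e₁ e₂ q - along e₁ e₂ P)]
      nlinarith [abs_nonneg (along e₁ e₂ q - along e₁ e₂ P)]
    nlinarith [sq_nonneg (across e₁ e₂ q - across e₁ e₂ P)]
  have hw_hi : (w.norm : ℝ) ≤ (R : ℝ) ^ 2 := by
    rw [hnw]
    have h1 : (along e₁ e₂ q - along e₁ e₂ P) ^ 2 ≤ (2 + D) ^ 2 := by
      rw [← sq_abs (along e₁ e₂ q - along e₁ e₂ P)]
      nlinarith [abs_nonneg (along e₁ e₂ q - along e₁ e₂ P)]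
    have h2 : (across e₁ e₂ q - across e₁ e₂ P) ^ 2 ≤ ((R : ℝ) - 3 / 4) ^ 2 := by
      rw [← sq_abs (across e₁ e₂ q - across e₁ e₂ P)]
      nlinarith [abs_nonneg (across e₁ e₂ q - across e₁ e₂ P)]
    nlinarith
  have hq_lo : (R : ℝ) ^ 2 < (q.norm : ℝ) := by
    rw [hnq]
    have : (R : ℝ) ^ 2 < (along e₁ e₂ q) ^ 2 := by
      rw [← sq_abs (along e₁ e₂ q)]; nlinarith
    nlinarith [sq_nonneg (across e₁ e₂ q)]
  have h1 : 1 < w.norm := by
    have : ((1 : ℤ) : ℝ) < (w.norm : ℝ) := by push_cast; linarith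
    exact_mod_cast this
  have h2 : w.norm ≤ ((R ^ 2 : ℕ) : ℤ) := by
    have : (w.norm : ℝ) ≤ (((R ^ 2 : ℕ) : ℤ) : ℝ) := by push_cast; exact hw_hi
    exact_mod_cast this
  have h3 : w.norm < (P + w).norm := by
    rw [hqw]
    have : (w.norm : ℝ) < (q.norm : ℝ) := lt_of_le_of_lt hw_hi hq_lo
    exact_mod_cast this
  have h4 := composite_near_multiple (R ^ 2) T w h1 h2 h3
  rw [← hP, hqw] at h4
  exact h4 hq

/-- A bounded set of Gaussian integers is finite. -/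
theorem finite_range_of_norm_le (z : ℕ → GaussianInt) (K : ℕ) (h : ∀ n, (z n).norm ≤ K) :
    (Set.range z).Finite := by
  apply Set.Finite.subset (s := (fun q : ℤ × ℤ => (⟨q.1, q.2⟩ : GaussianInt)) ''
    ((Set.Icc (-(K : ℤ)) K) ×ˢ (Set.Icc (-(K : ℤ)) K)))
  · exact ((Set.finite_Icc _ _).prod (Set.finite_Icc _ _)).image _
  · rintro _ ⟨n, rfl⟩
    have h1 := h n
    rw [Zsqrtd.norm_def] at h1
    have a1 := Int.le_self_sq (z n).re
    have a2 := Int.le_self_sq (-(z n).re)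
    have b1 := Int.le_self_sq (z n).im
    have b2 := Int.le_self_sq (-(z n).im)
    have c1 := sq_nonneg (z n).re
    have c2 := sq_nonneg (z n).im
    refine ⟨((z n).re, (z n).im), ⟨⟨?_, ?_⟩, ⟨?_, ?_⟩⟩, rfl⟩ <;> nlinarith

/-- The barrier point: a multiple `M * T` of `M` far out along the direction `(e₁, e₂)` and
within `1 / 4` of the line through the origin, of controlled size. -/
theorem exists_barrier_point (e₁ e₂ : ℝ) (he : e₁ ^ 2 + e₂ ^ 2 = 1) (D s₀ : ℝ) (hD : 0 ≤ D)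
    (hs₀ : 0 ≤ s₀) (R M : ℕ) (hM1 : 1 ≤ M) :
    ∃ (m : ℕ) (T : GaussianInt), 1 ≤ m ∧ (m : ℝ) ≤ 2 * (s₀ + R + 1) + 1 ∧
      s₀ + R + 1 ≤ along e₁ e₂ ((M : GaussianInt) * T) ∧
      along e₁ e₂ ((M : GaussianInt) * T) + 2 + D ≤ (12 + D) * ((M : ℝ) * m) ^ 2 ∧
      |across e₁ e₂ ((M : GaussianInt) * T)| ≤ 1 / 4 := by
  have hR0 : (0 : ℝ) ≤ R := Nat.cast_nonneg R
  have hMpos : (1 : ℝ) ≤ M := by exact_mod_cast hM1
  set m := ⌈2 * (s₀ + R + 1)⌉₊ with hm
  have hm_lo : 2 * (s₀ + R + 1) ≤ (m : ℝ) := Nat.le_ceil _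
  have hm_hi : (m : ℝ) ≤ 2 * (s₀ + R + 1) + 1 := (Nat.ceil_lt_add_one (by positivity)).le
  have hmpos : (1 : ℝ) ≤ m := by linarith
  have hm1 : 1 ≤ m := by exact_mod_cast hmpos
  have hN3 : 3 ≤ 4 * M * m := by nlinarith
  obtain ⟨T₀, hT1, hT2, hT3⟩ := exists_forward e₁ e₂ he (4 * M * m) hN3
  refine ⟨m, (m : GaussianInt) * T₀, hm1, hm_hi, ?_, ?_, ?_⟩
  all_goals
    have hPal : along e₁ e₂ ((M : GaussianInt) * ((m : GaussianInt) * T₀))
        = (M : ℝ) * m * along e₁ e₂ T₀ := by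
      simp [along]; ring
    have hPac : across e₁ e₂ ((M : GaussianInt) * ((m : GaussianInt) * T₀))
        = (M : ℝ) * m * across e₁ e₂ T₀ := by
      simp [across]; ring
    have hMm : (1 : ℝ) ≤ (M : ℝ) * m := by
      have := mul_le_mul hMpos hmpos (by norm_num) (by linarith)
      linarith
    have hMm0 : (0 : ℝ) ≤ (M : ℝ) * m := by linarith
    have hcast : (((4 * M * m : ℕ) : ℝ) + 1) = 4 * ((M : ℝ) * m) + 1 := by push_cast; ring
    rw [hcast] at hT2 hT3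
  · rw [hPal]
    have h1 : (m : ℝ) ≤ (M : ℝ) * m := by
      have := mul_le_mul_of_nonneg_right hMpos (by linarith : (0 : ℝ) ≤ m)
      linarith
    have h2 : (M : ℝ) * m * (1 / 2) ≤ (M : ℝ) * m * along e₁ e₂ T₀ :=
      mul_le_mul_of_nonneg_left hT1 hMm0
    linarith
  · rw [hPal]
    have h2 : (M : ℝ) * m * along e₁ e₂ T₀ ≤ (M : ℝ) * m * (2 * (4 * ((M : ℝ) * m) + 1)) :=
      mul_le_mul_of_nonneg_left hT3 hMm0
    have h1 : (M : ℝ) * m ≤ ((M : ℝ) * m) ^ 2 := by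
      have := mul_le_mul_of_nonneg_right hMm hMm0
      rw [sq]; linarith
    have h3 : (1 : ℝ) ≤ ((M : ℝ) * m) ^ 2 := by linarith
    have h4 : (2 + D) * 1 ≤ (2 + D) * ((M : ℝ) * m) ^ 2 :=
      mul_le_mul_of_nonneg_left h3 (by linarith)
    have h5 : (M : ℝ) * m * (2 * (4 * ((M : ℝ) * m) + 1))
        = 8 * ((M : ℝ) * m) ^ 2 + 2 * ((M : ℝ) * m) := by ring
    have h6 : (12 + D) * ((M : ℝ) * m) ^ 2
        = 10 * ((M : ℝ) * m) ^ 2 + (2 + D) * ((M : ℝ) * m) ^ 2 := by ring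
    linarith
  · rw [hPac, abs_mul, abs_of_nonneg hMm0]
    calc (M : ℝ) * m * |across e₁ e₂ T₀| ≤ (M : ℝ) * m * (1 / (4 * ((M : ℝ) * m) + 1)) :=
          mul_le_mul_of_nonneg_left hT2 hMm0
      _ ≤ 1 / 4 := by
          rw [mul_one_div, div_le_div_iff₀ (by positivity) (by norm_num)]
          linarith

theorem core (e₁ e₂ : ℝ) (he : e₁ ^ 2 + e₂ ^ 2 = 1) (c₀ C D : ℝ) (z : ℕ → GaussianInt)
    (hinj : Function.Injective z) (hprime : ∀ n, Prime (z n))
    (hstep : ∀ n, |along e₁ e₂ (z (n + 1)) - along e₁ e₂ (z n)| ≤ D)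
    (hreg : ∀ n, 3 * (across e₁ e₂ (z n) - c₀) ^ 2
      ≤ C + (1 / 2) * Real.log ((z n).norm : ℝ)) : False := by
  have hD : 0 ≤ D := (abs_nonneg _).trans (hstep 0)
  set s₀ := |along e₁ e₂ (z 0)| with hs₀
  have hs₀0 : 0 ≤ s₀ := abs_nonneg _
  have hc0 : 0 ≤ |c₀| := abs_nonneg _
  have hC0 : 0 ≤ |C| := abs_nonneg _
  obtain ⟨R, hR⟩ := exists_nat_ge (100 * (|c₀| + 2) + |C| + (2 + D) ^ 2 + 4 * s₀ + 18)
  have hR0 : (0 : ℝ) ≤ R := Nat.cast_nonneg R
  have hsqD : 0 ≤ (2 + D) ^ 2 := sq_nonneg _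
  have hRb : (2 + D) ^ 2 + 1 ≤ (R : ℝ) := by linarith
  have hM1 : 1 ≤ primorial (R ^ 2) := primorial_pos _
  have hM4 : primorial (R ^ 2) ≤ 4 ^ (R ^ 2) := primorial_le_four_pow _
  obtain ⟨m, T, hm1, hm_hi, hsP, hX, hfP⟩ :=
    exists_barrier_point e₁ e₂ he D s₀ hD hs₀0 R (primorial (R ^ 2)) hM1
  have hnegal : along e₁ e₂ ((primorial (R ^ 2) : GaussianInt) * (-T))
      = -along e₁ e₂ ((primorial (R ^ 2) : GaussianInt) * T) := by
    simp [along]; ring
  have hnegac : across e₁ e₂ ((primorial (R ^ 2) : GaussianInt) * (-T))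
      = -across e₁ e₂ ((primorial (R ^ 2) : GaussianInt) * T) := by
    simp [across]; ring
  set sP := along e₁ e₂ ((primorial (R ^ 2) : GaussianInt) * T) with hsPdef
  have hX1 : 1 ≤ sP + 2 + D := by linarith
  have habound : ∀ n, |along e₁ e₂ (z n)| ≤ sP + 2 + D →
      |across e₁ e₂ (z n) - c₀| ≤ R - |c₀| - 1 := fun n hn =>
    across_bound e₁ e₂ he c₀ C D hD R s₀ hs₀0 hR (primorial (R ^ 2)) m hM1 hM4 hm1 hm_hi
      (sP + 2 + D) hX1 hX (z n) (hprime n).ne_zero hn (hreg n)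
  have hconf : ∀ n, |along e₁ e₂ (z n)| < sP + 2 := by
    intro n
    induction n with
    | zero => linarith
    | succ n ih =>
      by_contra hcon
      rw [not_lt] at hcon
      have hst := abs_le.mp (hstep n)
      have ih' := abs_lt.mp ih
      rcases le_or_gt 0 (along e₁ e₂ (z (n + 1))) with hpos | hneg
      · rw [abs_of_nonneg hpos] at hcon
        have hab := habound (n + 1) (by rw [abs_of_nonneg hpos]; linarith)
        refine barrier e₁ e₂ he c₀ D hD R hRb T (z (n + 1)) (hprime _) hab hfP ?_ ?_ ?_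
        · rw [abs_of_nonneg (by linarith)]; linarith
        · rw [abs_of_nonneg (by linarith)]; linarith
        · rw [abs_of_nonneg hpos]; linarith
      · rw [abs_of_neg hneg] at hcon
        have hab := habound (n + 1) (by rw [abs_of_neg hneg]; linarith)
        refine barrier e₁ e₂ he c₀ D hD R hRb (-T) (z (n + 1)) (hprime _) hab ?_ ?_ ?_ ?_
        · rw [hnegac, abs_neg]; exact hfP
        · rw [hnegal, abs_of_nonpos (by linarith)]; linarith
        · rw [hnegal, abs_of_nonpos (by linarith)]; linarith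
        · rw [abs_of_neg hneg]; linarith
  obtain ⟨K, hK⟩ := exists_nat_ge ((sP + 2) ^ 2 + ((R : ℝ) + |c₀|) ^ 2)
  have hnormK : ∀ n, (z n).norm ≤ K := by
    intro n
    have h1 := norm_eq e₁ e₂ he (z n)
    have hcn := hconf n
    have h2 : along e₁ e₂ (z n) ^ 2 ≤ (sP + 2) ^ 2 := by
      rw [← sq_abs (along e₁ e₂ (z n))]
      exact pow_le_pow_left₀ (abs_nonneg _) hcn.le 2
    have hab := habound n (by linarith)
    have h3 : across e₁ e₂ (z n) ^ 2 ≤ ((R : ℝ) + |c₀|) ^ 2 := by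
      have h4 : |across e₁ e₂ (z n)| ≤ (R : ℝ) + |c₀| := by
        have : across e₁ e₂ (z n) = (across e₁ e₂ (z n) - c₀) + c₀ := by ring
        rw [this]
        exact (abs_add_le _ _).trans (by linarith)
      rw [← sq_abs (across e₁ e₂ (z n))]
      exact pow_le_pow_left₀ (abs_nonneg _) h4 2
    have : ((z n).norm : ℝ) ≤ ((K : ℤ) : ℝ) := by push_cast; linarith
    exact_mod_cast this
  exact (Set.infinite_range_of_injective hinj) (finite_range_of_norm_le z K hnormK)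

/-- **No bounded-step walk on Gaussian primes inside a widening strip around any line.**
Let `u + t v` (`t` real, `v ≠ 0`) be any real line `L` in the complex plane and let `C`, `D` be
real numbers.  There is no sequence `z 0, z 1, …` of pairwise distinct Gaussian primes with
`|z (n + 1) - z n| ≤ D` for all `n` such that every `z n` satisfies
`3 dist(z n, L) ^ 2 ≤ C + log |z n|`. -/
theorem result (u v : ℂ) (hv : v ≠ 0) (C D : ℝ) (z : ℕ → GaussianInt)
    (hinj : Function.Injective z) (hprime : ∀ n, Prime (z n))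
    (hstep : ∀ n, ‖((z (n + 1) : GaussianInt) : ℂ) - ((z n : GaussianInt) : ℂ)‖ ≤ D)
    (hreg : ∀ n, ∃ t : ℝ, 3 * ‖((z n : GaussianInt) : ℂ) - (u + (t : ℂ) * v)‖ ^ 2
      ≤ C + Real.log ‖((z n : GaussianInt) : ℂ)‖) : False := by
  have hvn : 0 < ‖v‖ := norm_pos_iff.mpr hv
  set e₁ := v.re / ‖v‖ with he₁
  set e₂ := v.im / ‖v‖ with he₂
  have hsq : v.re ^ 2 + v.im ^ 2 = ‖v‖ ^ 2 := by
    rw [Complex.sq_norm, Complex.normSq_apply]; ring
  have he : e₁ ^ 2 + e₂ ^ 2 = 1 := by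
    rw [he₁, he₂, div_pow, div_pow, ← add_div, hsq]; field_simp
  have hD : 0 ≤ D := (_root_.norm_nonneg _).trans (hstep 0)
  have hperp : v.im * e₁ - v.re * e₂ = 0 := by
    rw [he₁, he₂]; ring
  refine core e₁ e₂ he (u.im * e₁ - u.re * e₂) C D z hinj hprime ?_ ?_
  · intro n
    have h1 := hstep n
    have h2 : ‖((z (n + 1) : GaussianInt) : ℂ) - ((z n : GaussianInt) : ℂ)‖ ^ 2
        = (((z (n + 1)).re : ℝ) - (z n).re) ^ 2 + (((z (n + 1)).im : ℝ) - (z n).im) ^ 2 := by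
      rw [Complex.sq_norm, Complex.normSq_apply, Complex.sub_re, Complex.sub_im,
        ← GaussianInt.intCast_re, ← GaussianInt.intCast_re, ← GaussianInt.intCast_im,
        ← GaussianInt.intCast_im]
      ring
    have h3 : (along e₁ e₂ (z (n + 1)) - along e₁ e₂ (z n)) ^ 2 ≤ D ^ 2 := by
      have h5 := (proj_sq_le e₁ e₂ he (((z (n + 1)).re : ℝ) - (z n).re)
        (((z (n + 1)).im : ℝ) - (z n).im)).1
      have h6 : along e₁ e₂ (z (n + 1)) - along e₁ e₂ (z n)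
          = (((z (n + 1)).re : ℝ) - (z n).re) * e₁ + (((z (n + 1)).im : ℝ) - (z n).im) * e₂ := by
        unfold along; ring
      rw [h6]
      have h7 : ‖((z (n + 1) : GaussianInt) : ℂ) - ((z n : GaussianInt) : ℂ)‖ ^ 2 ≤ D ^ 2 := by
        nlinarith [_root_.norm_nonneg (((z (n + 1) : GaussianInt) : ℂ) - ((z n : GaussianInt) : ℂ))]
      linarith
    exact abs_le_of_sq_le_sq h3 hD
  · intro n
    obtain ⟨t, ht⟩ := hreg n
    set a : ℝ := ((z n).re : ℝ) - u.re - t * v.re with ha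
    set b : ℝ := ((z n).im : ℝ) - u.im - t * v.im with hb
    have h2 : ‖((z n : GaussianInt) : ℂ) - (u + (t : ℂ) * v)‖ ^ 2 = a ^ 2 + b ^ 2 := by
      rw [Complex.sq_norm, Complex.normSq_apply, Complex.sub_re, Complex.sub_im, Complex.add_re,
        Complex.add_im, Complex.re_ofReal_mul, Complex.im_ofReal_mul,
        ← GaussianInt.intCast_re, ← GaussianInt.intCast_im]
      ring
    have h3 : across e₁ e₂ (z n) - (u.im * e₁ - u.re * e₂) = b * e₁ - a * e₂ := by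
      unfold across
      rw [ha, hb]
      linear_combination t * hperp
    rw [h3]
    have h5 := (proj_sq_le e₁ e₂ he a b).2
    have h6 : Real.log ‖((z n : GaussianInt) : ℂ)‖ = (1 / 2) * Real.log ((z n).norm : ℝ) := by
      rw [Complex.norm_def, Real.log_sqrt (Complex.normSq_nonneg _),
        ← GaussianInt.intCast_real_norm]
      ring
    rw [h6, h2] at ht
    linarith

end Vale.Agent.Results.P015.WideStripAllLines
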